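import Crest.Agent.N207.S.Ga.Sys

/-!
Row 207 (S0320), block REG + FAR: the statement.
-/

set_option autoImplicit false

open Set

namespace Crest.Agent.N207.S.Rg

/-- Scale invariant jet bounds up to order `m` at time `s` on `[0,1]`. -/
def JB (m : ℕ) (K e : ℝ) (U : ℝ → ℝ → Ga.E3) (s : ℝ) : Prop :=
  ∀ x ∈ Icc (0 : ℝ) 1, ∀ j ≤ m,
    Ga.wF x (U s x 0) ^ j * |Ex.jet (j + 1) (fun y => U s y 0) x| ≤ K ∧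
    Ga.wF x (U s x 0) ^ (j + 1) * |Ex.jet j (fun y => U s y 2) x| ≤ K * e

/-- **Block REG + FAR.** -/
def RegStmt : Prop :=
  ∃ x0 : ℝ, 0 < x0 ∧ ∀ (m : ℕ) (K0 : ℝ), 2 ≤ m → ∃ K1 e0 : ℝ, 1 ≤ K1 ∧ 0 < e0 ∧
    ∀ (e : ℝ) (b : ℕ) (h : Ga.Rel e b), e ≤ e0 → ∀ xs : ℝ, 0 < xs → xs ≤ x0 →
    ∀ del : ℝ, 0 < del → ∃ T0 : ℝ, 0 < T0 ∧ ∀ (t : ℝ) (U : ℝ → ℝ → Ga.E3), 0 < t → t ≤ T0 →
      Ex.IsSol (Ga.sys h) 0 t U →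
      (∀ s ∈ Icc 0 t, ∀ x ∈ Icc (0 : ℝ) 1, U s x 1 = Ex.jet 1 (fun y => U s y 0) x) →
      JB m K0 e U 0 → (∀ x ∈ Icc xs 1, |U 0 x 0| ≤ xs ^ 2) →
      (∀ s ∈ Icc 0 t, ∀ x ∈ Icc 0 xs, x ≤ 2 * (x + U s x 0) ∧ |1 + U s x 1| ≤ 2) →
      ∀ s ∈ Icc 0 t, JB m K1 e U s ∧ ∀ x ∈ Icc xs 1, x ≤ 2 * Ga.wF x (U s x 0) ∧
        ∀ j, j + 2 ≤ m →
        |Ex.jet j (fun y => U s y 0) x - Ex.jet j (fun y => U 0 y 0) x| ≤ del ∧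
        |Ex.jet j (fun y => U s y 2) x - Ex.jet j (fun y => U 0 y 2) x| ≤ del

end Crest.Agent.N207.S.Rg
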