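import Mathlib

/-!
Row 207 (S0320), REG: jet sequences, Leibniz products, weighted bounds and chains.
-/

set_option autoImplicit false

open Set Finset

namespace Crest.Agent.N207.S.Rg

noncomputable section

/-- Leibniz product of two jet sequences. -/
def lmul (a b : ℕ → ℝ) (n : ℕ) : ℝ := ∑ i ∈ range (n + 1), (n.choose i : ℝ) * (a i * b (n - i))

theorem lmul_zero (a b : ℕ → ℝ) : lmul a b 0 = a 0 * b 0 := by simp [lmul]

theorem lmul_succ (a b : ℕ → ℝ) (n : ℕ) :
    lmul a b (n + 1) = lmul (fun i => a (i + 1)) b n + lmul a (fun i => b (i + 1)) n := by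
  unfold lmul
  have h := Finset.sum_choose_succ_mul (fun i j => a i * b j) n
  rw [h, add_comm]
  congr 1
  · refine Finset.sum_congr rfl fun i hi => ?_
    have : i ≤ n := Nat.lt_succ_iff.1 (mem_range.1 hi)
    rw [show n + 1 - i = n - i + 1 by omega]

/-- Weighted bound of the jets below order `n`, and of the `n`-th jet up to the explicit part
`c`. -/
structure Top (ρ M : ℝ) (n : ℕ) (a : ℕ → ℝ) (c : ℝ) : Prop where
  low : ∀ i, i < n → |a i| * ρ ^ i ≤ M
  top : |a n - c| * ρ ^ n ≤ M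

theorem Top.nonneg {ρ M c : ℝ} {n : ℕ} {a : ℕ → ℝ} (hρ : 0 ≤ ρ) (h : Top ρ M n a c) : 0 ≤ M :=
  le_trans (by positivity) h.top

theorem Top.mono {ρ M M' c : ℝ} {n : ℕ} {a : ℕ → ℝ} (h : Top ρ M n a c) (hM : M ≤ M') :
    Top ρ M' n a c := ⟨fun i hi => (h.low i hi).trans hM, h.top.trans hM⟩

theorem Top.of_le {ρ M : ℝ} {n : ℕ} {a : ℕ → ℝ} (h : ∀ i, i ≤ n → |a i| * ρ ^ i ≤ M) :
    Top ρ M n a 0 := ⟨fun i hi => h i hi.le, by simpa using h n le_rfl⟩

theorem Top.le {ρ M : ℝ} {n : ℕ} {a : ℕ → ℝ} (h : Top ρ M n a 0) :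
    ∀ i, i ≤ n → |a i| * ρ ^ i ≤ M := by
  intro i hi
  rcases hi.eq_or_lt with h1 | h1
  · subst h1; simpa using h.top
  · exact h.low i h1

theorem Top.of_low {ρ M : ℝ} {n : ℕ} {a : ℕ → ℝ} (hM : 0 ≤ M)
    (h : ∀ i, i < n → |a i| * ρ ^ i ≤ M) : Top ρ M n a (a n) := ⟨h, by simpa using hM⟩

theorem Top.congr {ρ M c c' : ℝ} {n : ℕ} {a : ℕ → ℝ} (h : Top ρ M n a c) (e : c = c') :
    Top ρ M n a c' := e ▸ h

theorem Top.add {ρ M M' c c' : ℝ} {n : ℕ} {a b : ℕ → ℝ} (hρ : 0 ≤ ρ) (h : Top ρ M n a c)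
    (h' : Top ρ M' n b c') : Top ρ (M + M') n (fun i => a i + b i) (c + c') := by
  refine ⟨fun i hi => ?_, ?_⟩
  · have := mul_le_mul_of_nonneg_right (abs_add_le (a i) (b i)) (pow_nonneg hρ i)
    linarith [h.low i hi, h'.low i hi]
  · have := mul_le_mul_of_nonneg_right (abs_add_le (a n - c) (b n - c')) (pow_nonneg hρ n)
    rw [show a n + b n - (c + c') = a n - c + (b n - c') by ring]
    linarith [h.top, h'.top]

theorem Top.smul {ρ M c : ℝ} {n : ℕ} {a : ℕ → ℝ} (r : ℝ) (h : Top ρ M n a c) :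
    Top ρ (|r| * M) n (fun i => r * a i) (r * c) := by
  refine ⟨fun i hi => ?_, ?_⟩
  · rw [abs_mul, mul_assoc]; exact mul_le_mul_of_nonneg_left (h.low i hi) (abs_nonneg r)
  · rw [← mul_sub, abs_mul, mul_assoc]; exact mul_le_mul_of_nonneg_left h.top (abs_nonneg r)

theorem sum_bd {ρ M M' : ℝ} {n : ℕ} {a b : ℕ → ℝ} (hρ : 0 ≤ ρ) (hM : 0 ≤ M) (hM' : 0 ≤ M')
    (s : Finset ℕ) (hs : s ⊆ range (n + 1)) (ha : ∀ i ∈ s, |a i| * ρ ^ i ≤ M)
    (hb : ∀ i ∈ s, |b (n - i)| * ρ ^ (n - i) ≤ M') :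
    |∑ i ∈ s, (n.choose i : ℝ) * (a i * b (n - i))| * ρ ^ n ≤ 2 ^ n * (M * M') := by
  have h1 : |∑ i ∈ s, (n.choose i : ℝ) * (a i * b (n - i))| * ρ ^ n ≤
      ∑ i ∈ s, (n.choose i : ℝ) * (M * M') := by
    refine (mul_le_mul_of_nonneg_right (Finset.abs_sum_le_sum_abs _ _) (pow_nonneg hρ n)).trans ?_
    rw [Finset.sum_mul]
    refine Finset.sum_le_sum fun i hi => ?_
    have hi' : i ≤ n := Nat.lt_succ_iff.1 (mem_range.1 (hs hi))
    have e : ρ ^ n = ρ ^ i * ρ ^ (n - i) := by rw [← pow_add]; congr 1; omega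
    rw [abs_mul, abs_mul, Nat.abs_cast, e, mul_assoc]
    refine mul_le_mul_of_nonneg_left ?_ (Nat.cast_nonneg _)
    have := mul_le_mul (ha i hi) (hb i hi) (by positivity) hM
    nlinarith
  refine h1.trans ?_
  rw [← Finset.sum_mul]
  refine mul_le_mul_of_nonneg_right ?_ (mul_nonneg hM hM')
  have h2 : ∑ i ∈ s, (n.choose i : ℝ) ≤ ∑ i ∈ range (n + 1), (n.choose i : ℝ) :=
    Finset.sum_le_sum_of_subset_of_nonneg hs fun i _ _ => Nat.cast_nonneg _
  have h3 : ∑ i ∈ range (n + 1), (n.choose i : ℝ) = 2 ^ n := by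
    exact_mod_cast Nat.sum_range_choose n
  linarith

theorem lmul_bd {ρ M M' : ℝ} {n : ℕ} {a b : ℕ → ℝ} (hρ : 0 ≤ ρ)
    (ha : ∀ i, i ≤ n → |a i| * ρ ^ i ≤ M) (hb : ∀ i, i ≤ n → |b i| * ρ ^ i ≤ M') :
    |lmul a b n| * ρ ^ n ≤ 2 ^ n * (M * M') :=
  sum_bd hρ (le_trans (by positivity) (ha 0 n.zero_le)) (le_trans (by positivity) (hb 0 n.zero_le))
    _ subset_rfl (fun i hi => ha i (Nat.lt_succ_iff.1 (mem_range.1 hi)))
    (fun i _ => hb _ (Nat.sub_le _ _))

/-- Product rule for `Top`. -/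
theorem Top.mul {ρ M M' c c' : ℝ} {n : ℕ} {a b : ℕ → ℝ} (hρ : 0 ≤ ρ) (hn : 1 ≤ n)
    (h : Top ρ M n a c) (h' : Top ρ M' n b c') :
    Top ρ (2 ^ n * (M * M')) n (lmul a b) (a 0 * c' + c * b 0) := by
  have hM := h.nonneg hρ
  have hM' := h'.nonneg hρ
  refine ⟨fun i hi => ?_, ?_⟩
  · refine (lmul_bd hρ (fun l hl => h.low l (by omega)) (fun l hl => h'.low l (by omega))).trans ?_
    exact mul_le_mul_of_nonneg_right (pow_le_pow_right₀ (by norm_num) hi.le) (by positivity)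
  · set a' : ℕ → ℝ := fun i => if i = n then a n - c else a i with ha'
    set b' : ℕ → ℝ := fun i => if i = n then b n - c' else b i with hb'
    have e : lmul a b n - (a 0 * c' + c * b 0) = lmul a' b' n := by
      unfold lmul
      obtain ⟨m, rfl⟩ : ∃ m, n = m + 1 := ⟨n - 1, by omega⟩
      rw [Finset.sum_range_succ, Finset.sum_range_succ', Finset.sum_range_succ (n := m + 1),
        Finset.sum_range_succ']
      have : ∑ i ∈ range m, ((m + 1).choose (i + 1) : ℝ) * (a' (i + 1) * b' (m + 1 - (i + 1))) =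
          ∑ i ∈ range m, ((m + 1).choose (i + 1) : ℝ) * (a (i + 1) * b (m + 1 - (i + 1))) := by
        refine Finset.sum_congr rfl fun i hi => ?_
        have := mem_range.1 hi
        simp only [ha', hb']
        rw [if_neg (by omega), if_neg (by omega)]
      rw [this]
      simp [ha', hb']
      ring
    rw [e]
    refine lmul_bd hρ (fun i hi => ?_) (fun i hi => ?_)
    · by_cases hin : i = n
      · subst hin; simpa [ha'] using h.top
      · simpa [ha', hin] using h.low i (by omega)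
    · by_cases hin : i = n
      · subst hin; simpa [hb'] using h'.top
      · simpa [hb', hin] using h'.low i (by omega)

/-- Splitting off the two leading terms of a Leibniz product. -/
theorem lmul_two {ρ M M' c : ℝ} {n : ℕ} {a b : ℕ → ℝ} (hρ : 0 ≤ ρ) (hn : 2 ≤ n) (hM' : 0 ≤ M')
    (h : Top ρ M n a c) (hb : ∀ i, i + 2 ≤ n → |b i| * ρ ^ i ≤ M') :
    |lmul a b n - (a 0 * b n + n * (a 1 * b (n - 1)) + c * b 0)| * ρ ^ n ≤ 2 ^ n * (M * M') := by
  set a' : ℕ → ℝ := fun i => if i = n then a n - c else a i with ha'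
  have e : lmul a b n - (a 0 * b n + n * (a 1 * b (n - 1)) + c * b 0) =
      ∑ i ∈ (range (n + 1)).filter (2 ≤ ·), (n.choose i : ℝ) * (a' i * b (n - i)) := by
    obtain ⟨m, rfl⟩ : ∃ m, n = m + 2 := ⟨n - 2, by omega⟩
    rw [Finset.sum_filter]
    unfold lmul
    rw [Finset.sum_range_succ, Finset.sum_range_succ', Finset.sum_range_succ',
      Finset.sum_range_succ (n := m + 2), Finset.sum_range_succ', Finset.sum_range_succ']
    have : ∑ i ∈ range m, (if 2 ≤ i + 1 + 1 then ((m + 2).choose (i + 1 + 1) : ℝ) *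
        (a' (i + 1 + 1) * b (m + 2 - (i + 1 + 1))) else 0) =
        ∑ i ∈ range m, ((m + 2).choose (i + 1 + 1) : ℝ) *
          (a (i + 1 + 1) * b (m + 2 - (i + 1 + 1))) := by
      refine Finset.sum_congr rfl fun i hi => ?_
      have := mem_range.1 hi
      simp only [ha']
      rw [if_pos (by omega), if_neg (by omega)]
    rw [this]
    simp [ha']
    ring
  rw [e]
  refine sum_bd hρ (h.nonneg hρ) hM' _ (Finset.filter_subset _ _) (fun i hi => ?_) fun i hi => ?_
  · have := mem_range.1 (Finset.mem_filter.1 hi).1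
    by_cases hin : i = n
    · subst hin; simpa [ha'] using h.top
    · simpa [ha', hin] using h.low i (by omega)
  · have h1 := mem_range.1 (Finset.mem_filter.1 hi).1
    have h2 := (Finset.mem_filter.1 hi).2
    exact hb _ (by omega)

theorem lmul_two0 {ρ M M' : ℝ} {n : ℕ} {a b : ℕ → ℝ} (hρ : 0 ≤ ρ) (hM' : 0 ≤ M')
    (h : Top ρ M n a 0) (hb : ∀ i, i + 2 ≤ n → |b i| * ρ ^ i ≤ M') :
    |lmul a b n - (a 0 * b n + n * (a 1 * b (n - 1)))| * ρ ^ n ≤ 2 ^ n * (M * M') := by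
  have hM := h.nonneg hρ
  rcases n with _ | _ | n
  · simp [lmul]; positivity
  · have : lmul a b (0 + 1) - (a 0 * b (0 + 1) + ((0 + 1 : ℕ) : ℝ) * (a 1 * b (0 + 1 - 1))) = 0 := by
      simp [lmul, Finset.sum_range_succ]
    rw [this]; simp; positivity
  · simpa using lmul_two hρ (by omega) hM' h hb

theorem lmul_one (a b : ℕ → ℝ) : lmul a b 1 = a 0 * b 1 + a 1 * b 0 := by
  simp [lmul, Finset.sum_range_succ]

/-- Jets of the identity. -/
def idS (x : ℝ) (i : ℕ) : ℝ := if i = 0 then x else if i = 1 then 1 else 0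

/-- Jets of a constant. -/
def cS (c : ℝ) (i : ℕ) : ℝ := if i = 0 then c else 0

theorem top_id {ρ x : ℝ} (hρ : 0 ≤ ρ) (h0 : 0 ≤ x) (hx : x ≤ 2 * ρ) (n : ℕ) :
    Top ρ (2 * ρ) n (idS x) 0 := by
  refine Top.of_le fun i _ => ?_
  unfold idS
  split_ifs with h1 h2
  · subst h1; simpa [abs_of_nonneg h0] using hx
  · subst h2; simp; linarith
  · simpa using hρ

theorem top_c {ρ : ℝ} (c : ℝ) (n : ℕ) : Top ρ |c| n (cS c) 0 := by
  refine Top.of_le fun i _ => ?_
  unfold cS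
  split_ifs with h1
  · subst h1; simp
  · simp

/-- Jets of the reciprocal. -/
theorem inv_bd {ρ C : ℝ} {w u : ℕ → ℝ} (hρ : 0 < ρ) (hC : 1 ≤ C) (hw : w 0 = ρ) (hu : u 0 = ρ⁻¹)
    (n : ℕ) (h1 : ∀ i, 1 ≤ i → i ≤ n → lmul w u i = 0)
    (hb : ∀ i, i ≤ n → |w i| * ρ ^ i ≤ C * ρ) :
    ∀ i, i ≤ n → |u i| * ρ ^ i ≤ (2 ^ n * C) ^ i * ρ⁻¹ := by
  intro i
  induction i using Nat.strong_induction_on with
  | _ i ih =>
    intro hi
    rcases Nat.eq_zero_or_pos i with rfl | hpos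
    · simp [hu, abs_of_pos hρ]
    obtain ⟨m, rfl⟩ : ∃ m, i = m + 1 := ⟨i - 1, by omega⟩
    have hA : (1 : ℝ) ≤ 2 ^ n * C := one_le_mul_of_one_le_of_one_le (one_le_pow₀ (by norm_num)) hC
    have e := h1 (m + 1) (by omega) hi
    have e2 : ρ * u (m + 1) = -∑ i ∈ (range (m + 1 + 1)).filter (1 ≤ ·),
        ((m + 1).choose i : ℝ) * (w i * u (m + 1 - i)) := by
      rw [Finset.sum_filter, Finset.sum_range_succ']
      unfold lmul at e
      rw [Finset.sum_range_succ'] at e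
      simp [hw] at e ⊢
      linarith
    have h3 := sum_bd (n := m + 1) (a := w) (b := u) (M := C * ρ) (M' := (2 ^ n * C) ^ m * ρ⁻¹)
      hρ.le (by positivity) (by positivity) ((range (m + 1 + 1)).filter (1 ≤ ·))
      (Finset.filter_subset _ _)
      (fun l hl => hb l (by have := mem_range.1 (Finset.mem_filter.1 hl).1; omega))
      (fun l hl => by
        have a1 := mem_range.1 (Finset.mem_filter.1 hl).1
        have a2 := (Finset.mem_filter.1 hl).2
        refine (ih (m + 1 - l) (by omega) (by omega)).trans ?_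
        exact mul_le_mul_of_nonneg_right (pow_le_pow_right₀ hA (by omega)) (by positivity))
    rw [← abs_neg, ← e2, abs_mul, abs_of_pos hρ] at h3
    have h4 : (2 : ℝ) ^ (m + 1) ≤ 2 ^ n := pow_le_pow_right₀ (by norm_num) hi
    have h5 : ρ * (|u (m + 1)| * ρ ^ (m + 1)) ≤ ρ * ((2 ^ n * C) ^ (m + 1) * ρ⁻¹) := by
      have h6 : (2 : ℝ) ^ (m + 1) * (C * ρ * ((2 ^ n * C) ^ m * ρ⁻¹)) ≤
          2 ^ n * (C * ρ * ((2 ^ n * C) ^ m * ρ⁻¹)) :=
        mul_le_mul_of_nonneg_right h4 (by positivity)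
      calc ρ * (|u (m + 1)| * ρ ^ (m + 1)) = ρ * |u (m + 1)| * ρ ^ (m + 1) := by ring
        _ ≤ _ := h3.trans h6
        _ = _ := by ring
    exact le_of_mul_le_mul_left h5 hρ

/-- `f (j+1)` is the derivative of `f j` on `I`. -/
def Chain (I : Set ℝ) (f : ℕ → ℝ → ℝ) : Prop :=
  ∀ j x, x ∈ I → HasDerivWithinAt (f j) (f (j + 1) x) I x

variable {I : Set ℝ} {f g : ℕ → ℝ → ℝ}

theorem Chain.shift (h : Chain I f) : Chain I fun j => f (j + 1) := fun j x hx => h (j + 1) x hx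

theorem Chain.add (h : Chain I f) (h' : Chain I g) : Chain I fun j x => f j x + g j x :=
  fun j x hx => (h j x hx).add (h' j x hx)

theorem Chain.smul (r : ℝ) (h : Chain I f) : Chain I fun j x => r * f j x :=
  fun j x hx => (h j x hx).const_mul r

theorem Chain.mul (h : Chain I f) (h' : Chain I g) :
    Chain I fun j x => lmul (fun i => f i x) (fun i => g i x) j := by
  intro j x hx
  show HasDerivWithinAt (fun x => lmul (fun i => f i x) (fun i => g i x) j)
    (lmul (fun i => f i x) (fun i => g i x) (j + 1)) I x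
  rw [lmul_succ]
  unfold lmul
  rw [← Finset.sum_add_distrib]
  refine HasDerivWithinAt.fun_sum fun i _ => ?_
  have := ((h i x hx).mul (h' (j - i) x hx)).const_mul (j.choose i : ℝ)
  rw [← mul_add]
  exact this

theorem chain_id : Chain I fun j x => idS x j := by
  intro j x _
  unfold idS
  rcases j with _ | _ | j
  · simpa using (hasDerivAt_id' x).hasDerivWithinAt
  · simpa using hasDerivWithinAt_const x I (1 : ℝ)
  · simpa using hasDerivWithinAt_const x I (0 : ℝ)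

theorem chain_c (c : ℝ) : Chain I fun j _ => cS c j := by
  intro j x _
  unfold cS
  simpa using hasDerivWithinAt_const x I (if j = 0 then c else 0)

theorem Chain.unique (hI : UniqueDiffOn ℝ I) (h : Chain I f) (h' : Chain I g)
    (h0 : ∀ x ∈ I, f 0 x = g 0 x) : ∀ j, ∀ x ∈ I, f j x = g j x := by
  intro j
  induction j with
  | zero => exact h0
  | succ j ih =>
    intro x hx
    exact (hI x hx).eq_deriv _ (h j x hx) ((h' j x hx).congr ih (ih x hx))

theorem Chain.iter (hI : UniqueDiffOn ℝ I) (h : Chain I f) :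
    ∀ j, ∀ x ∈ I, iteratedDerivWithin j (f 0) I x = f j x := by
  intro j
  induction j with
  | zero => simp
  | succ j ih =>
    intro x hx
    rw [iteratedDerivWithin_succ, derivWithin_congr ih (ih x hx)]
    exact (h j x hx).derivWithin (hI x hx)

theorem Chain.contDiffOn (hI : UniqueDiffOn ℝ I) (h : Chain I f) :
    ContDiffOn ℝ (⊤ : ℕ∞) (f 0) I := by
  refine contDiffOn_of_differentiableOn_deriv fun m _ x hx => ?_
  exact ((h m x hx).congr (h.iter hI m) (h.iter hI m x hx)).differentiableWithinAt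

theorem chain_of_contDiffOn {F : ℝ → ℝ} (hI : UniqueDiffOn ℝ I)
    (h : ContDiffOn ℝ (⊤ : ℕ∞) F I) : Chain I fun j => iteratedDerivWithin j F I := by
  intro j x hx
  have := (h.differentiableOn_iteratedDerivWithin (m := j)
    (by exact_mod_cast (ENat.natCast_lt_top j)) hI x hx).hasDerivWithinAt
  rwa [← iteratedDerivWithin_succ] at this

theorem Chain.inv (hI : UniqueDiffOn ℝ I) (h : Chain I f) (h0 : ∀ x ∈ I, f 0 x ≠ 0) :
    ∃ u : ℕ → ℝ → ℝ, Chain I u ∧ (∀ x, u 0 x = (f 0 x)⁻¹) ∧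
      ∀ i, 1 ≤ i → ∀ x ∈ I, lmul (fun l => f l x) (fun l => u l x) i = 0 := by
  have hc := chain_of_contDiffOn hI ((h.contDiffOn hI).inv h0)
  refine ⟨_, hc, fun x => by simp, fun i hi x hx => ?_⟩
  have := (h.mul hc).unique hI (chain_c 1) (fun y hy => by
    simp [lmul_zero, cS, h0 y hy]) i x hx
  rw [this, cS, if_neg (by omega)]

end

end Crest.Agent.N207.S.Rg
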