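import Crest.Agent.N207.S.Rg.Near

/-!
Row 207 (S0320), REG: weighted jets and the pointwise inequality near the tip.
-/

set_option autoImplicit false

open Set

namespace Crest.Agent.N207.S.Rg

noncomputable section

/-- `w^a f`. -/
def g0 (a : ℕ) (w0 f0 : ℝ) : ℝ := w0 ^ a * f0
/-- first derivative of `w^a f`. -/
def g1 (a : ℕ) (w0 w1 f0 f1 : ℝ) : ℝ := w0 ^ a * f1 + a * w0 ^ a * w1 / w0 * f0
/-- second derivative of `w^a f`. -/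
def g2 (a : ℕ) (w0 w1 w2 f0 f1 f2 : ℝ) : ℝ :=
  w0 ^ a * f2 + 2 * a * w0 ^ a * w1 / w0 * f1 +
    (a * w0 ^ a * w2 / w0 + a * (a - 1) * w0 ^ a * w1 ^ 2 / w0 ^ 2) * f0

theorem hd_pow {w : ℝ → ℝ} {w1 x : ℝ} {s : Set ℝ} (a : ℕ) (hw : HasDerivWithinAt w w1 s x)
    (h0 : w x ≠ 0) : HasDerivWithinAt (fun y => w y ^ a) (a * w x ^ a * w1 / w x) s x := by
  refine (hw.fun_pow a).congr_deriv ?_
  rcases a with _ | a
  · simp
  · simp only [Nat.add_sub_cancel]; field_simp; ring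

theorem hd_g0 {w f : ℝ → ℝ} {w1 f1 x : ℝ} {s : Set ℝ} (a : ℕ) (hw : HasDerivWithinAt w w1 s x)
    (hf : HasDerivWithinAt f f1 s x) (h0 : w x ≠ 0) :
    HasDerivWithinAt (fun y => g0 a (w y) (f y)) (g1 a (w x) w1 (f x) f1) s x := by
  refine ((hd_pow a hw h0).fun_mul hf).congr_deriv ?_
  unfold g1; ring

theorem hd_g1 {w0 w1 f0 f1 : ℝ → ℝ} {w2 f2 x : ℝ} {s : Set ℝ} (a : ℕ)
    (hw : HasDerivWithinAt w0 (w1 x) s x) (hw1 : HasDerivWithinAt w1 w2 s x)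
    (hf : HasDerivWithinAt f0 (f1 x) s x) (hf1 : HasDerivWithinAt f1 f2 s x) (h0 : w0 x ≠ 0) :
    HasDerivWithinAt (fun y => g1 a (w0 y) (w1 y) (f0 y) (f1 y))
      (g2 a (w0 x) (w1 x) w2 (f0 x) (f1 x) f2) s x := by
  have hp := hd_pow a hw h0
  refine ((hp.fun_mul hf1).fun_add
    (((((hp.const_mul (a : ℝ)).fun_mul hw1).fun_div hw h0)).fun_mul hf)).congr_deriv ?_
  unfold g2; field_simp; ring

theorem wt_form (a : ℕ) {ρ w1 w2 wt f0 f1 f2 ft Z b β r : ℝ} (hρ : ρ ≠ 0)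
    (hw : wt = Z * w2 + β * w1 - Z * w1 ^ 2 / ρ - 1) (hf : ft = Z * f2 + b * f1 + r) :
    ρ * g1 a ρ wt f0 ft = ρ * Z * g2 a ρ w1 w2 f0 f1 f2 +
      (ρ * b - 2 * a * (Z * w1)) * g1 a ρ w1 f0 f1 - a * g0 a ρ f0 + ρ ^ (a + 1) * r +
      g0 a ρ f0 * (a * ((β - b) * w1) + a * a * (Z * w1 ^ 2 / ρ)) := by
  subst hw hf
  unfold g0 g1 g2
  field_simp
  ring

theorem ab_mul {a b A B : ℝ} (ha : |a| ≤ A) (hb : |b| ≤ B) : |a * b| ≤ A * B := by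
  rw [abs_mul]; exact mul_le_mul ha hb (abs_nonneg _) ((abs_nonneg _).trans ha)

theorem ab_add {a b A B : ℝ} (ha : |a| ≤ A) (hb : |b| ≤ B) : |a + b| ≤ A + B :=
  (abs_add_le _ _).trans (add_le_add ha hb)

theorem ab_sub {a b A B : ℝ} (ha : |a| ≤ A) (hb : |b| ≤ B) : |a - b| ≤ A + B :=
  (abs_sub _ _).trans (add_le_add ha hb)

theorem ab_nn {a : ℝ} (ha : 0 ≤ a) : |a| ≤ a := (abs_of_nonneg ha).le

theorem two_mul_le {u v d y θ : ℝ} (hθ : 0 < θ) (hd : |d| ≤ y) :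
    2 * u * (d * v) ≤ θ * v ^ 2 + y ^ 2 / θ * u ^ 2 := by
  have h1 : d ^ 2 ≤ y ^ 2 := by
    rw [← sq_abs d]; exact pow_le_pow_left₀ (abs_nonneg _) hd 2
  have h2 : 2 * u * (d * v) ≤ θ * v ^ 2 + d ^ 2 / θ * u ^ 2 := by
    have : 0 ≤ (θ * v - d * u) ^ 2 / θ := by positivity
    have e : (θ * v - d * u) ^ 2 / θ = θ * v ^ 2 + d ^ 2 / θ * u ^ 2 - 2 * u * (d * v) := by
      field_simp; ring
    linarith
  have h3 : d ^ 2 / θ * u ^ 2 ≤ y ^ 2 / θ * u ^ 2 := by gcongr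
  linarith

theorem two_mul_le' {u v d e A x κ : ℝ} (he : 0 < e) (hκ : 0 < κ) (hx : 0 ≤ x)
    (hd : |d| ≤ e * A * x) :
    2 * u * (d * v) ≤ κ * (e * x ^ 2) * v ^ 2 + e * (A ^ 2 / κ) * u ^ 2 := by
  rcases hx.eq_or_lt with h | h
  · subst h
    have : d = 0 := abs_nonpos_iff.1 (by simpa using hd)
    subst this
    have : 0 ≤ e * (A ^ 2 / κ) * u ^ 2 := by positivity
    simpa using this
  · have := two_mul_le (u := u) (v := v) (θ := κ * (e * x ^ 2)) (by positivity) hd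
    have e1 : (e * A * x) ^ 2 / (κ * (e * x ^ 2)) = e * (A ^ 2 / κ) := by field_simp
    rwa [e1] at this

theorem amgm8 (U V : ℝ) : |U| * |V| / 4 ≤ U ^ 2 + V ^ 2 / 64 := by
  nlinarith [sq_nonneg (|U| - |V| / 8), sq_abs U, sq_abs V]

/-- The algebraic heart of REG near the tip. -/
theorem core_near {U U1 U2 Ut V V1 V2 Vt Z s ρ x e A A' C P c j dU gU rU dV rV : ℝ}
    (he : 0 < e) (hx : 0 ≤ x) (hZ : e * x ^ 2 ≤ 2 * (ρ * Z)) (hP : |P| ≤ 2) (hA : 0 ≤ A)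
    (hUC : |c * U| ≤ C) (hVC : |V| ≤ C) (hc : c = 0 ∧ 0 ≤ j ∨ c = 1 ∧ 1 ≤ j)
    (hU : c * (ρ * Ut) = c * (ρ * Z * U2 + (ρ * s + dU) * U1 + gU * V1 - j * U + rU))
    (hV : ρ * Vt = ρ * Z * V2 + (ρ * s + dV) * V1 - (j + 1) * V + 4 * P * (c * U) + rV)
    (h1 : |dU| ≤ e * A * x) (h2 : |gU| ≤ e * A * x) (h3 : |rU| ≤ e * A)
    (h4 : |dV| ≤ e * A * x) (h5 : |rV| ≤ A' + e * A) :
    ρ * ((2 * c * U * Ut + V * Vt / 32) -
        Z * (2 * c * (U1 ^ 2 + U * U2) + (V1 ^ 2 + V * V2) / 32) -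
        s * (2 * c * U * U1 + V * V1 / 32)) ≤
      -(c * U ^ 2 + V ^ 2 / 64) + A' ^ 2 / 64 + e * (131 * (A ^ 2 * C ^ 2) + 3 * (A * C)) := by
  have hC : 0 ≤ C := (abs_nonneg _).trans hVC
  have hV2 : V ^ 2 ≤ C ^ 2 := by rw [← sq_abs V]; exact pow_le_pow_left₀ (abs_nonneg _) hVC 2
  have b3 := two_mul_le' (u := V) (v := V1) (κ := 1 / 2) he (by norm_num) hx h4
  have b3' : e * (A ^ 2 / (1 / 2)) * V ^ 2 ≤ e * (A ^ 2 / (1 / 2)) * C ^ 2 := by gcongr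
  have b5 : V * rV ≤ |V| * A' + e * (A * C) := by
    have : V * rV ≤ |V| * (A' + e * A) := (le_abs_self _).trans (ab_mul le_rfl h5)
    have h6 : |V| * (e * A) ≤ C * (e * A) := mul_le_mul_of_nonneg_right hVC (by positivity)
    nlinarith
  have b6 : 2 * (|V| * A') ≤ V ^ 2 + A' ^ 2 := by nlinarith [sq_nonneg (|V| - A'), sq_abs V]
  have z1 : e * x ^ 2 * V1 ^ 2 ≤ 2 * (ρ * Z) * V1 ^ 2 := by gcongr
  have p1 : 0 ≤ e * (A ^ 2 * C ^ 2) := by positivity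
  have p2 : 0 ≤ e * (A * C) := by positivity
  rcases hc with ⟨rfl, hj⟩ | ⟨rfl, hj⟩
  · have e1 : ρ * ((2 * 0 * U * Ut + V * Vt / 32) -
        Z * (2 * 0 * (U1 ^ 2 + U * U2) + (V1 ^ 2 + V * V2) / 32) -
        s * (2 * 0 * U * U1 + V * V1 / 32)) =
        (2 * V * (dV * V1) - 2 * (j + 1) * V ^ 2 + 2 * (V * rV) - 2 * (ρ * Z) * V1 ^ 2) / 64 := by
      linear_combination V / 32 * hV
    rw [e1]
    have : 0 ≤ j * V ^ 2 := by positivity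
    have : 0 ≤ e * x ^ 2 * V1 ^ 2 := by positivity
    nlinarith
  · simp only [one_mul] at hU hV hUC ⊢
    have hU2 : U ^ 2 ≤ C ^ 2 := by rw [← sq_abs U]; exact pow_le_pow_left₀ (abs_nonneg _) hUC 2
    have e1 : ρ * ((2 * 1 * U * Ut + V * Vt / 32) -
        Z * (2 * 1 * (U1 ^ 2 + U * U2) + (V1 ^ 2 + V * V2) / 32) -
        s * (2 * 1 * U * U1 + V * V1 / 32)) =
        2 * U * (dU * U1) + 2 * U * (gU * V1) - 2 * j * U ^ 2 + 2 * (U * rU) -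
          2 * (ρ * Z) * U1 ^ 2 +
        (2 * V * (dV * V1) - 2 * (j + 1) * V ^ 2 + 8 * (P * (U * V)) + 2 * (V * rV) -
          2 * (ρ * Z) * V1 ^ 2) / 64 := by
      linear_combination 2 * U * hU + V / 32 * hV
    rw [e1]
    have b1 := two_mul_le' (u := U) (v := U1) (κ := 1) he one_pos hx h1
    have b2 := two_mul_le' (u := U) (v := V1) (κ := 1 / 128) he (by norm_num) hx h2
    have b1' : e * (A ^ 2 / 1) * U ^ 2 ≤ e * (A ^ 2 / 1) * C ^ 2 := by gcongr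
    have b2' : e * (A ^ 2 / (1 / 128)) * U ^ 2 ≤ e * (A ^ 2 / (1 / 128)) * C ^ 2 := by gcongr
    have b4 : U * rU ≤ C * (e * A) := (le_abs_self _).trans (ab_mul hUC h3)
    have b7 : P * (U * V) ≤ 2 * (|U| * |V|) :=
      (le_abs_self _).trans (ab_mul hP (abs_mul U V).le)
    have b8 := amgm8 U V
    have z2 : e * x ^ 2 * U1 ^ 2 ≤ 2 * (ρ * Z) * U1 ^ 2 := by gcongr
    have j1 : U ^ 2 ≤ j * U ^ 2 := le_mul_of_one_le_left (sq_nonneg _) hj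
    have j2 : V ^ 2 ≤ j * V ^ 2 := le_mul_of_one_le_left (sq_nonneg _) hj
    linarith [sq_nonneg V]

/-- The algebraic heart of REG away from the tip. -/
theorem core_far {U U1 U2 Ut V V1 V2 Vt Z s μ K c rU rV : ℝ}
    (hK : 0 < K) (hμ : 0 ≤ μ) (hμ1 : μ ≤ 1) (hZ : μ ≤ K * Z) (hUC : |U| ≤ K) (hVC : |V| ≤ K)
    (hc : c = 0 ∧ |U1| ≤ K ∨ c = 1)
    (hU : Ut = Z * U2 + s * U1 + rU) (hV : Vt = Z * V2 + s * V1 + rV)
    (h1 : |rU| ≤ K * (1 + μ * (|U1| + |V1|))) (h2 : |rV| ≤ K * (1 + μ * (|U1| + |V1|))) :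
    (2 * c * U * Ut + V * Vt / 32) -
        Z * (2 * c * (U1 ^ 2 + U * U2) + (V1 ^ 2 + V * V2) / 32) -
        s * (2 * c * U * U1 + V * V1 / 32) ≤ 3 * K ^ 2 + K ^ 3 + 100 * K ^ 5 := by
  have hZ0 : μ / K ≤ Z := by rw [div_le_iff₀ hK]; linarith
  have a1 : U * rU ≤ K * (K * (1 + μ * (|U1| + |V1|))) := (le_abs_self _).trans (ab_mul hUC h1)
  have a2 : V * rV ≤ K * (K * (1 + μ * (|U1| + |V1|))) := (le_abs_self _).trans (ab_mul hVC h2)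
  have z1 : μ / K * V1 ^ 2 ≤ Z * V1 ^ 2 := by gcongr
  have z2 : μ / K * U1 ^ 2 ≤ Z * U1 ^ 2 := by gcongr
  have k1 : ∀ y θ : ℝ, 0 < θ → 3 * K ^ 2 * (μ * |y|) ≤ θ * (μ / K * y ^ 2) + 9 / (4 * θ) * K ^ 5 := by
    intro y θ hθ
    have h3 : 3 * K ^ 2 * |y| ≤ θ / K * y ^ 2 + 9 / (4 * θ) * K ^ 5 := by
      have : 0 ≤ (2 * θ * |y| - 3 * K ^ 3) ^ 2 / (4 * θ * K) := by positivity
      have e : (2 * θ * |y| - 3 * K ^ 3) ^ 2 / (4 * θ * K) =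
          θ / K * |y| ^ 2 + 9 / (4 * θ) * K ^ 5 - 3 * K ^ 2 * |y| := by field_simp; ring
      rw [e, sq_abs] at this
      linarith
    have h4 := mul_le_mul_of_nonneg_left h3 hμ
    have h5 : μ * (9 / (4 * θ) * K ^ 5) ≤ 1 * (9 / (4 * θ) * K ^ 5) := by gcongr
    have e2 : μ * (θ / K * y ^ 2 + 9 / (4 * θ) * K ^ 5) =
        θ * (μ / K * y ^ 2) + μ * (9 / (4 * θ) * K ^ 5) := by ring
    nlinarith
  have k2 := k1 V1 (1 / 32) (by norm_num)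
  have p1 : 0 ≤ K ^ 2 * (μ * |V1|) := by positivity
  have p2 : 0 ≤ K ^ 2 * (μ * |U1|) := by positivity
  have p3 : 0 ≤ K ^ 5 := by positivity
  have p4 : 0 ≤ K ^ 2 := by positivity
  have p5 : 0 ≤ K ^ 3 := by positivity
  rcases hc with ⟨rfl, hU1⟩ | rfl
  · have e1 : (2 * 0 * U * Ut + V * Vt / 32) -
        Z * (2 * 0 * (U1 ^ 2 + U * U2) + (V1 ^ 2 + V * V2) / 32) -
        s * (2 * 0 * U * U1 + V * V1 / 32) = V * rV / 32 - Z * V1 ^ 2 / 32 := by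
      rw [hV]; ring
    rw [e1]
    have : K ^ 2 * (μ * |U1|) ≤ K ^ 2 * (1 * K) := by gcongr
    nlinarith
  · have e1 : (2 * 1 * U * Ut + V * Vt / 32) -
        Z * (2 * 1 * (U1 ^ 2 + U * U2) + (V1 ^ 2 + V * V2) / 32) -
        s * (2 * 1 * U * U1 + V * V1 / 32) =
        2 * (U * rU) + V * rV / 32 - 2 * (Z * U1 ^ 2) - Z * V1 ^ 2 / 32 := by
      rw [hU, hV]; ring
    rw [e1]
    have k3 := k1 U1 2 (by norm_num)
    nlinarith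

end

end Crest.Agent.N207.S.Rg
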