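import Crest.Agent.N207.S.Ga.Jet

/-!
Row 207 (S0320), block FAR: the differentiated system away from the tip (statement).
-/

set_option autoImplicit false

open Set

namespace Crest.Agent.N207.S.Rg

/-- The `j` times differentiated system on a compact part of the domain away from `x = 0`. -/
def FarStmt : Prop :=
  ∀ (S : Ex.Sys Ga.E3) (K0 : Set (ℝ × Ga.E3)), IsCompact K0 → K0 ⊆ S.Om →
    (∀ x u, (x, u) ∈ K0 → 2 / 3 ≤ x → ∀ y ∈ Icc x 1, (y, u) ∈ K0) →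
    ∀ (xs M : ℝ) (j : ℕ), 0 < xs → ∃ K : ℝ, 1 ≤ K ∧
    ∀ (t0 t1 : ℝ) (U : ℝ → ℝ → Ga.E3), Ex.IsSol S t0 t1 U → ∀ t ∈ Icc t0 t1, ∀ x ∈ Icc xs 1,
      (x, U t x) ∈ K0 → (∀ i, ∀ l ≤ max j 1, |Ga.cj U i l t x| ≤ M) →
      1 ≤ K * S.a (x, U t x) ∧ S.a (x, U t x) ≤ K ∧ ∀ i,
      |Ga.ct S U i j t x - S.a (x, U t x) * Ex.mu x * Ga.cj U i (j + 2) t x -
          S.a (x, U t x) * (j * (1 - 2 * x) - S.b) * Ga.cj U i (j + 1) t x| ≤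
        K * (1 + Ex.mu x * (|Ga.cj U 0 (j + 1) t x| + |Ga.cj U 1 (j + 1) t x| +
          |Ga.cj U 2 (j + 1) t x|))

end Crest.Agent.N207.S.Rg
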