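import Crest.Agent.N207.S.Rg.Sol
import Crest.Agent.N207.S.Rg.Defs

/-!
Row 207 (S0320), REG + FAR: the maximum principle argument.
-/

set_option autoImplicit false

open Set

namespace Crest.Agent.N207.S.Rg

open Ga

theorem exists_D (Ap : ℕ → ℝ → ℝ) {a : ℝ} (ha : 0 ≤ a) : ∃ D Cp : ℕ → ℝ, Monotone D ∧
    ∀ j, a + Ap j (Cp j) ^ 2 / 64 ≤ D j ∧ 2 ≤ Cp j ∧ ∀ i < j, 3 + 2 * D i ≤ Cp j := by
  let D : ℕ → ℝ := fun n => Nat.rec (a + Ap 0 2 ^ 2 / 64)
    (fun j d => d + Ap (j + 1) (3 + 2 * d) ^ 2 / 64) n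
  have h1 : ∀ j, D (j + 1) = D j + Ap (j + 1) (3 + 2 * D j) ^ 2 / 64 := fun _ => rfl
  have h0 : D 0 = a + Ap 0 2 ^ 2 / 64 := rfl
  have hm : Monotone D := monotone_nat_of_le_succ fun j => by
    rw [h1]; exact le_add_of_nonneg_right (by positivity)
  have h2 : ∀ j, a ≤ D j := fun j => le_trans (by rw [h0]; exact le_add_of_nonneg_right (by positivity))
    (hm j.zero_le)
  refine ⟨D, fun n => Nat.rec 2 (fun j _ => 3 + 2 * D j) n, hm, fun j => ?_⟩
  rcases j with _ | j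
  · exact ⟨h0.ge, le_rfl, fun i hi => absurd hi (Nat.not_lt_zero i)⟩
  · refine ⟨?_, ?_, fun i hi => ?_⟩
    · show a + Ap (j + 1) (3 + 2 * D j) ^ 2 / 64 ≤ D (j + 1)
      rw [h1]; linarith [h2 j]
    · show 2 ≤ 3 + 2 * D j
      linarith [h2 j]
    · show 3 + 2 * D i ≤ 3 + 2 * D j
      linarith [hm (show i ≤ j by omega)]

theorem cc_nonneg (j : ℕ) : 0 ≤ cc j := by unfold cc; split_ifs <;> norm_num
theorem cc_le (j : ℕ) : cc j ≤ 1 := by unfold cc; split_ifs <;> norm_num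

theorem abs_g0 (a : ℕ) {w : ℝ} (hw : 0 < w) (f : ℝ) : |g0 a w f| = w ^ a * |f| := by
  rw [g0, abs_mul, abs_of_pos (by positivity)]

theorem of_PhJ {j : ℕ} {e w D : ℝ} {H K : ℕ → ℝ} (he : 0 < e) (hw : 0 < w) (hD : 2 ≤ D)
    (h : PhJ j e w H K ≤ D + 1) :
    (1 ≤ j → w ^ j * |H (j + 1)| ≤ 3 + 2 * D) ∧ w ^ (j + 1) * |K j| ≤ (3 + 128 * D) * e := by
  unfold PhJ Ph at h
  constructor
  · intro hj
    rw [cc, if_neg (by omega)] at h
    rw [← abs_g0 j hw]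
    nlinarith [sq_nonneg (|g0 j w (H (j + 1))| - 1), sq_abs (g0 j w (H (j + 1))),
      sq_nonneg (g0 (j + 1) w (K j / e))]
  · have h1 := mul_nonneg (cc_nonneg j) (sq_nonneg (g0 j w (H (j + 1))))
    have h2 : |g0 (j + 1) w (K j / e)| ≤ 3 + 128 * D := by
      nlinarith [sq_nonneg (|g0 (j + 1) w (K j / e)| - 1), sq_abs (g0 (j + 1) w (K j / e))]
    rwa [abs_g0 _ hw, abs_div, abs_of_pos he, ← mul_div_assoc, div_le_iff₀ he] at h2

theorem PhJ_le {j : ℕ} {e w K0 : ℝ} {H K : ℕ → ℝ} (he : 0 < e) (hw : 0 < w)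
    (h1 : w ^ j * |H (j + 1)| ≤ K0) (h2 : w ^ (j + 1) * |K j| ≤ K0 * e) :
    PhJ j e w H K ≤ 2 * K0 ^ 2 := by
  have a1 : g0 j w (H (j + 1)) ^ 2 ≤ K0 ^ 2 := by
    rw [← sq_abs, abs_g0 j hw]; exact pow_le_pow_left₀ (by positivity) h1 2
  have a2 : g0 (j + 1) w (K j / e) ^ 2 ≤ K0 ^ 2 := by
    rw [← sq_abs, abs_g0 _ hw, abs_div, abs_of_pos he, ← mul_div_assoc]
    exact pow_le_pow_left₀ (by positivity) ((div_le_iff₀ he).2 h2) 2
  have a3 := mul_le_mul_of_nonneg_right (cc_le j) (sq_nonneg (g0 j w (H (j + 1))))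
  unfold PhJ Ph
  nlinarith [sq_nonneg K0]

set_option maxHeartbeats 1000000 in
/-- **Block REG + FAR** from the differentiated system away from the tip. -/
theorem regStmt_of (hfar : FarStmt) : RegStmt := by
  refine ⟨min (del0 / 2) (1 / 4), lt_min (half_pos del0_pos) (by norm_num), fun m K0 hm => ?_⟩
  choose Ap hAp using near_sol
  choose Bp hB0 hB using hAp
  obtain ⟨D, Cp, hmono, hD⟩ := exists_D Ap (a := 2 * K0 ^ 2 + 2) (by positivity)
  have hD2 : ∀ j, 2 * K0 ^ 2 + 2 ≤ D j := fun j => le_trans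
    (le_add_of_nonneg_right (by positivity)) (hD j).1
  have hD3 : ∀ j, 2 ≤ D j := fun j => le_trans (le_add_of_nonneg_left (by positivity)) (hD2 j)
  obtain ⟨C, hCd⟩ : ∃ C, C = 3 + 128 * D m := ⟨_, rfl⟩
  have hC : 3 ≤ C := by linarith [hD3 m]
  obtain ⟨Bs, hBs0, hBs⟩ : ∃ Bs : ℝ, 0 ≤ Bs ∧ ∀ j ≤ m, Bp j (Cp j) C ≤ Bs :=
    ⟨_, Finset.sum_nonneg fun i _ => hB0 i (Cp i) C, fun j hj =>
      le_sum_range (f := fun j => Bp j (Cp j) C) (fun i => hB0 i _ _) hj⟩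
  refine ⟨C, min (1 / (8 * C)) (1 / (Bs + 1)), by linarith, lt_min (by positivity) (by positivity),
    ?_⟩
  intro e b h he0 xs hxs hx0 del hdel
  have he := h.1
  have heC : e * C ≤ 1 / 8 := by
    have := (le_div_iff₀ (by positivity)).1 (he0.trans (min_le_left _ _))
    linarith
  have heB : e * Bs ≤ 1 := by
    have := (le_div_iff₀ (by positivity)).1 (he0.trans (min_le_right _ _))
    linarith
  have hx1 : xs ≤ 1 / 4 := hx0.trans (min_le_right _ _)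
  obtain ⟨N, Λ, hN, hΛ, hF⟩ := far_sol hfar h hm hxs (hx0.trans (min_le_left _ _)) hx1
    (by linarith : 1 ≤ C) heC
  refine ⟨min (1 / (Λ + 1)) (min (del / (N + 1)) (xs ^ 2 / (N + 1))),
    lt_min (by positivity) (lt_min (by positivity) (by positivity)), ?_⟩
  intro t U ht hT hU hP hJ hη hnear
  have T1 : t * (Λ + 1) ≤ 1 := (le_div_iff₀ (by positivity)).1 (hT.trans (min_le_left _ _))
  have T2 : t * (N + 1) ≤ del :=
    (le_div_iff₀ (by positivity)).1 (hT.trans ((min_le_right _ _).trans (min_le_left _ _)))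
  have T3 : t * (N + 1) ≤ xs ^ 2 :=
    (le_div_iff₀ (by positivity)).1 (hT.trans ((min_le_right _ _).trans (min_le_right _ _)))
  have hP' : ∀ s ∈ Icc 0 t, ∀ x ∈ Icc (0 : ℝ) 1, U s x 1 = cj U 0 1 s x := hP
  have sub : ∀ {y : ℝ}, y ∈ Icc xs 1 → y ∈ Icc (0 : ℝ) 1 := fun hy => ⟨hxs.le.trans hy.1, hy.2⟩
  set Q : ℕ → ℝ := fun i => if i = 0 then 2 * xs ^ 2 else |K0| + 1 with hQ
  set G : Fin (m + 1) ⊕ Fin 2 → ℝ → ℝ → ℝ := fun i r y =>
    Sum.elim (fun j : Fin (m + 1) => F0 j e U r y - (D j + (Λ + 1) * r))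
      (fun i : Fin 2 => |cj U 0 i r (max y xs)| - Q i) i with hG
  -- consequences of the bounds at one time
  have st : ∀ r ∈ Icc 0 t, (∀ i y, 0 ≤ y → y ≤ 1 → G i r y ≤ 0) →
      (∀ y ∈ Icc (0 : ℝ) 1, ∀ j ≤ m,
        (1 ≤ j → wA U r y ^ j * |cj U 0 (j + 1) r y| ≤ 3 + 2 * D j) ∧
        wA U r y ^ j * |cj U 0 (j + 1) r y| ≤ C ∧ wA U r y ^ (j + 1) * |cj U 2 j r y| ≤ C * e) ∧
      ∀ y ∈ Icc xs 1, |U r y 0| ≤ 2 * xs ^ 2 := by
    intro r hr hg
    refine ⟨fun y hy j hj => ?_, fun y hy => ?_⟩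
    · have a0 : F0 j e U r y - (D j + (Λ + 1) * r) ≤ 0 := hg (.inl ⟨j, by omega⟩) y hy.1 hy.2
      have a1 : (Λ + 1) * r ≤ (Λ + 1) * t := by gcongr; exact hr.2
      obtain ⟨a2, a3⟩ := of_PhJ he (wA_pos hU hr hy) (hD3 j)
        (show F0 j e U r y ≤ D j + 1 by linarith)
      have a4 := hmono hj
      refine ⟨a2, ?_, a3.trans (by gcongr; linarith)⟩
      rcases Nat.eq_zero_or_pos j with rfl | hj0
      · rw [pow_zero, one_mul]
        rcases le_total y xs with a | a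
        · have := (hnear r hr y ⟨hy.1, a⟩).2
          rw [hP' r hr y hy] at this
          exact abs_le.2 ⟨by linarith [(abs_le.1 this).1], by linarith [(abs_le.1 this).2]⟩
        · have a5 : |cj U 0 1 r (max y xs)| - (|K0| + 1) ≤ 0 := hg (.inr 1) y hy.1 hy.2
          rw [max_eq_left a] at a5
          have := hD2 m
          nlinarith [sq_nonneg (|K0| - 1), sq_abs K0]
      · exact (a2 hj0).trans (by linarith [hD3 j])
    · have a5 : |cj U 0 0 r (max y xs)| - 2 * xs ^ 2 ≤ 0 := hg (.inr 0) y (sub hy).1 hy.2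
      rw [max_eq_left hy.1, cj_zero] at a5
      linarith
  -- closeness to the initial data
  have cl : ∀ s ∈ Icc 0 t, (∀ i r y, 0 ≤ r → r ≤ s → 0 ≤ y → y ≤ 1 → G i r y ≤ 0) →
      ∀ y ∈ Icc xs 1, (∀ j, j + 1 ≤ m → |cj U 0 j s y - cj U 0 j 0 y| ≤ N * t) ∧
        ∀ j, j + 2 ≤ m → |cj U 2 j s y - cj U 2 j 0 y| ≤ N * t := by
    intro s hs hg y hy
    have a0 : ∀ r ∈ Icc 0 s, r ∈ Icc 0 t := fun r hr => ⟨hr.1, hr.2.trans hs.2⟩
    have a1 := fun r (hr : r ∈ Icc 0 s) => st r (a0 r hr) fun i z => hg i r z hr.1 hr.2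
    have a2 := fun r (hr : r ∈ Icc 0 s) => hF t U ht hU hP' r (a0 r hr) y hy ((a1 r hr).2 y hy)
      fun j hj => ((a1 r hr).1 y (sub hy) j hj).2
    have a3 : ∀ i j, (∀ r ∈ Icc 0 s, |ct (sys h) U i j r y| ≤ N) →
        |cj U i j s y - cj U i j 0 y| ≤ N * t := fun i j hb => by
      have := norm_image_sub_le_of_norm_deriv_le_segment' (f := fun r => cj U i j r y) (C := N)
        (fun r hr => ((jet_sol ht hU i).dt j r y (a0 r hr) (sub hy)).mono
          (Icc_subset_Icc_right hs.2)) (fun r hr => hb r ⟨hr.1, hr.2.le⟩) s ⟨hs.1, le_rfl⟩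
      exact this.trans (by gcongr; linarith [hs.2])
    exact ⟨fun j hj => a3 0 j fun r hr => (a2 r hr).2.1 j hj,
      fun j hj => a3 2 j fun r hr => (a2 r hr).2.2.1 j hj⟩
  have h0t : (0 : ℝ) ∈ Icc 0 t := ⟨le_rfl, ht.le⟩
  have mx : ∀ {y : ℝ}, y ≤ 1 → max y xs ∈ Icc xs 1 := fun hy =>
    ⟨le_max_right _ _, max_le hy (by linarith)⟩
  have ini : ∀ i : Fin 2, ∀ y ∈ Icc xs 1, |cj U 0 i 0 y| ≤ Q i - xs ^ 2 := by
    intro i y hy
    fin_cases i
    · have := hη y hy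
      show |U 0 y 0| ≤ 2 * xs ^ 2 - xs ^ 2
      linarith
    · have := (hJ y (sub hy) 0 (by omega)).1
      rw [pow_zero, one_mul] at this
      show |cj U 0 1 0 y| ≤ |K0| + 1 - xs ^ 2
      have h1 : |cj U 0 1 0 y| ≤ |K0| := this.trans (le_abs_self _)
      nlinarith
  have main := MP.neg_of_no_touch (l := fun _ => 0) (r := fun _ => 1) (t0 := 0) (t1 := t)
    continuousOn_const continuousOn_const G ?_ ?_ ?_ fun _ _ _ => zero_lt_one
  · intro s hs
    have hg : ∀ i r y, 0 ≤ r → r ≤ s → 0 ≤ y → y ≤ 1 → G i r y ≤ 0 := fun i r y a c d f =>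
      (main i r y a (c.trans hs.2) d f).le
    have a1 := st s hs fun i y => hg i s y hs.1 le_rfl
    refine ⟨fun x hx j hj => (a1.1 x hx j hj).2, fun x hx => ⟨(hF t U ht hU hP' s hs x hx
      (a1.2 x hx) fun j hj => (a1.1 x (sub hx) j hj).2).1, fun j hj => ?_⟩⟩
    have a2 := cl s hs hg x hx
    exact ⟨(a2.1 j (by omega)).trans (by linarith), (a2.2 j hj).trans (by linarith)⟩
  · have sb : MP.Reg (fun _ => 0) (fun _ => 1) 0 t ⊆ Icc 0 t ×ˢ Icc (0 : ℝ) 1 :=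
      fun p hp => ⟨⟨hp.1, hp.2.1⟩, hp.2.2⟩
    rintro (j | i)
    · exact ((cont_F0 ht hU j).mono sb).sub (by fun_prop)
    · refine ContinuousOn.sub (ContinuousOn.abs ?_) continuousOn_const
      exact ((jet_sol ht hU 0).cu i).comp (f := fun p : ℝ × ℝ => (p.1, max p.2 xs)) (by fun_prop)
        fun p hp => ⟨(sb hp).1, sub (mx (sb hp).2.2)⟩
  · rintro (j | i) x a c
    · have a1 := hJ x ⟨a, c⟩ j (by omega)
      have a2 : F0 j e U 0 x ≤ 2 * K0 ^ 2 := PhJ_le he (wA_pos hU h0t ⟨a, c⟩) a1.1 a1.2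
      show F0 j e U 0 x - (D j + (Λ + 1) * 0) < 0
      linarith [hD2 j]
    · show |cj U 0 i 0 (max x xs)| - Q i < 0
      linarith [ini i _ (mx c), pow_pos hxs 2]
  · rintro (j | i) s x s0 s1 a c hz hg
    · have hs : s ∈ Icc 0 t := ⟨s0.le, s1⟩
      have hx : x ∈ Icc (0 : ℝ) 1 := ⟨a, c⟩
      have hj : (j : ℕ) ≤ m := by omega
      have a1 := st s hs fun i y => hg i s y hs.1 le_rfl
      have hz' : F0 j e U s x - (D j + (Λ + 1) * s) = 0 := hz
      have tb := fun Z σ => touch_both (Z := Z) (σ := σ)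
        (f := fun r y => F0 j e U r y - (D j + (Λ + 1) * r)) s0 hx
        (past_of ((hd_Ft ht hU j hs hx).sub
          (((hasDerivWithinAt_id s _).const_mul (Λ + 1)).const_add (D j))) s0 s1)
        (fun y hy => (hd_Fx ht hU j hs hy).sub_const _) (hd_Fxx ht hU j hs hx) hz'
        fun r y u v w z => hg (.inl j) r y u v w z
      rcases le_total x xs with d | d
      · obtain ⟨Z, σ, z0, z1, z2⟩ := hB j (Cp j) C e b h t U ht hU hP' (hD j).2.1 (by linarith) heC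
          s hs x ⟨a, d.trans hx1⟩ (hnear s hs x ⟨a, d⟩).1 (hnear s hs x ⟨a, d⟩).2
          (fun i u v => ((a1.1 x hx i (by omega)).1 u).trans ((hD j).2.2 i v))
          fun i hi => ⟨fun _ => (a1.1 x hx i (by omega)).2.1, (a1.1 x hx i (by omega)).2.2⟩
        have z3 := tb Z σ z0 z1 fun h1 => absurd h1 (by linarith)
        have z4 : 0 ≤ wA U s x * (Ft (sys h) j e U s x - Z * Fxx j e U s x - σ * Fx j e U s x) :=
          mul_nonneg (wA_pos hU hs hx).le (by linarith)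
        have z5 := mul_le_mul_of_nonneg_left (hBs j hj) he.le
        have z6 : 0 ≤ (Λ + 1) * s := by positivity
        linarith [(hD j).1, sq_nonneg K0]
      · obtain ⟨Z, σ, z0, z1, z2⟩ := (hF t U ht hU hP' s hs x ⟨d, c⟩ (a1.2 x ⟨d, c⟩)
          fun j hj => (a1.1 x hx j hj).2).2.2.2 j hj
        have z3 := tb Z σ z0 (fun h1 => absurd h1 (by linarith)) z1
        linarith
    · have a1 := (cl s ⟨s0.le, s1⟩ hg _ (mx c)).1 i (by omega)
      have a2 := ab_add a1 (ini i _ (mx c))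
      rw [sub_add_cancel] at a2
      have hz' : |cj U 0 i s (max x xs)| - Q i = 0 := hz
      linarith

end Crest.Agent.N207.S.Rg
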