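import Crest.Agent.N207.S.Rg.Seq
import Crest.Agent.N207.S.In.Defs

/-!
Row 207 (S0320), REG: the differentiated equations (W), (K) at one point.
-/

set_option autoImplicit false

open Set Finset

namespace Crest.Agent.N207.S.Rg

noncomputable section

/-- Jets of `z = 1 - x k`. -/
def zS (x : ℝ) (K : ℕ → ℝ) (i : ℕ) : ℝ := cS 1 i + (-1) * lmul (idS x) K i

/-- Jets of `Z = 2 e x z`. -/
def ZS (e x : ℝ) (K : ℕ → ℝ) (i : ℕ) : ℝ := 2 * e * lmul (idS x) (zS x K) i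

/-- Shifted jets. -/
def sh (a : ℕ → ℝ) (i : ℕ) : ℝ := a (i + 1)

/-- Jets of the right side of (W). -/
def RW (e x : ℝ) (W K U : ℕ → ℝ) (i : ℕ) : ℝ :=
  lmul (ZS e x K) (sh (sh W)) i + (-1) * lmul (ZS e x K) (lmul (lmul (sh W) (sh W)) U) i +
    sh W i + 2 * e * lmul (zS x K) (sh W) i + cS (-1) i

/-- Jets of `k + x k'`. -/
def QS (x : ℝ) (K : ℕ → ℝ) (i : ℕ) : ℝ := K i + lmul (idS x) (sh K) i

/-- Jets of `P² / w²`. -/
def GS (W U : ℕ → ℝ) : ℕ → ℝ := lmul (lmul (sh W) (sh W)) (lmul U U)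

/-- Jets of `z² - 1`. -/
def DS (x : ℝ) (K : ℕ → ℝ) : ℕ → ℝ :=
  lmul (fun i => (-1) * lmul (idS x) K i) fun i => zS x K i + cS 1 i

/-- Jets of the right side of (K). -/
def RK (e x : ℝ) (W K U : ℕ → ℝ) (i : ℕ) : ℝ :=
  lmul (ZS e x K) (sh (sh K)) i + 4 * e * lmul (zS x K) (sh K) i +
    e * lmul (QS x K) (QS x K) i + sh K i + lmul K K i + 2 * e * GS W U i +
    2 * e * lmul (DS x K) (GS W U) i

theorem jets_eq {e t0 t1 xs : ℝ} {w wt k kt : ℕ → ℝ → ℝ → ℝ} (h : XSol e t0 t1 xs w wt k kt)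
    (hxs : 0 < xs) {t x : ℝ} (ht : t ∈ Icc t0 t1) (hx : x ∈ Icc 0 xs) :
    ∃ U : ℕ → ℝ, U 0 = (w 0 t x)⁻¹ ∧ (∀ i, 1 ≤ i → lmul (fun l => w l t x) U i = 0) ∧
      (∀ n, wt n t x = RW e x (fun l => w l t x) (fun l => k l t x) U n) ∧
      ∀ n, kt n t x = RK e x (fun l => w l t x) (fun l => k l t x) U n := by
  have hI : UniqueDiffOn ℝ (Icc 0 xs) := uniqueDiffOn_Icc hxs
  have cw : Chain (Icc 0 xs) fun j y => w j t y := fun j y hy => h.jw.dx j t y ht hy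
  have ck : Chain (Icc 0 xs) fun j y => k j t y := fun j y hy => h.jk.dx j t y ht hy
  have cwt : Chain (Icc 0 xs) fun j y => wt j t y := fun j y hy => h.jw.dv j t y ht hy
  have ckt : Chain (Icc 0 xs) fun j y => kt j t y := fun j y hy => h.jk.dv j t y ht hy
  obtain ⟨u, cu, hu0, hu⟩ := cw.inv hI fun y hy => (h.pos t y ht hy).ne'
  have cz : Chain (Icc 0 xs) fun j y => zS y (fun l => k l t y) j :=
    (chain_c 1).add ((chain_id.mul ck).smul (-1))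
  have cZ : Chain (Icc 0 xs) fun j y => ZS e y (fun l => k l t y) j :=
    (chain_id.mul cz).smul (2 * e)
  have cP : Chain (Icc 0 xs) fun j y => sh (fun l => w l t y) j := cw.shift
  have cPP := cP.mul cP
  have cQ : Chain (Icc 0 xs) fun j y => QS y (fun l => k l t y) j :=
    ck.add (chain_id.mul ck.shift)
  have cG : Chain (Icc 0 xs) fun j y => GS (fun l => w l t y) (fun l => u l y) j :=
    cPP.mul (cu.mul cu)
  have cD : Chain (Icc 0 xs) fun j y => DS y (fun l => k l t y) j :=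
    ((chain_id.mul ck).smul (-1)).mul (cz.add (chain_c 1))
  have cRW : Chain (Icc 0 xs) fun j y =>
      RW e y (fun l => w l t y) (fun l => k l t y) (fun l => u l y) j :=
    ((((cZ.mul cP.shift).add ((cZ.mul (cPP.mul cu)).smul (-1))).add cP).add
      ((cz.mul cP).smul (2 * e))).add (chain_c (-1))
  have cRK : Chain (Icc 0 xs) fun j y =>
      RK e y (fun l => w l t y) (fun l => k l t y) (fun l => u l y) j :=
    ((((((cZ.mul ck.shift.shift).add ((cz.mul ck.shift).smul (4 * e))).add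
      ((cQ.mul cQ).smul e)).add ck.shift).add (ck.mul ck)).add (cG.smul (2 * e))).add
      ((cD.mul cG).smul (2 * e))
  refine ⟨fun l => u l x, hu0 x, fun i hi => hu i hi x hx, fun n => ?_, fun n => ?_⟩
  · refine cwt.unique hI cRW (fun y hy => ?_) n x hx
    have := (h.pos t y ht hy).ne'
    simp only [h.eqW t y ht hy, rhsW, RW, ZS, zS, sh, lmul_zero, cS, idS, if_true, hu0]
    field_simp
    ring
  · refine ckt.unique hI cRK (fun y hy => ?_) n x hx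
    have := (h.pos t y ht hy).ne'
    simp only [h.eqK t y ht hy, rhsK, RK, ZS, zS, QS, GS, DS, sh, lmul_zero, cS, idS, if_true, hu0]
    field_simp
    ring

theorem zS_zero (x : ℝ) (K : ℕ → ℝ) : zS x K 0 = 1 - x * K 0 := by
  simp [zS, cS, idS, lmul_zero]; ring

theorem ZS_zero (e x : ℝ) (K : ℕ → ℝ) : ZS e x K 0 = 2 * e * x * (1 - x * K 0) := by
  simp [ZS, lmul_zero, zS_zero, idS]; ring

theorem ZS_one (e x : ℝ) (K : ℕ → ℝ) :
    ZS e x K 1 = 2 * e * (1 - 2 * (x * K 0) - x ^ 2 * K 1) := by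
  simp only [ZS, lmul_one, zS, idS, cS, lmul_zero]
  norm_num
  ring_nf
  simp

/-- Bounds for `x k`, `z`, `Z`. -/
theorem top_z {e ρ x C c : ℝ} {n : ℕ} {K : ℕ → ℝ} (hn : 1 ≤ n) (he : 0 < e) (he1 : e ≤ 1)
    (hρ : 0 < ρ) (hC : 0 ≤ C) (h0 : 0 ≤ x) (hx : x ≤ 2 * ρ) (hK : Top ρ (e * C / ρ) n K c) :
    Top ρ (e * (2 * 2 ^ n * C)) n (fun i => (-1) * lmul (idS x) K i) (-(x * c)) ∧
    Top ρ (1 + 2 * 2 ^ n * C) n (zS x K) (-(x * c)) ∧
    Top ρ (e * ρ * (4 * 2 ^ n * (1 + 2 * 2 ^ n * C))) n (ZS e x K) (-(2 * e * x ^ 2 * c)) := by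
  have hX := top_id hρ.le h0 hx n
  have h1 : Top ρ (e * (2 * 2 ^ n * C)) n (fun i => (-1) * lmul (idS x) K i) (-(x * c)) :=
    (((hX.mul hρ.le hn hK).smul (-1)).congr (by simp [idS])).mono
      (le_of_eq (by simp; field_simp))
  have h2 : Top ρ (1 + 2 * 2 ^ n * C) n (zS x K) (-(x * c)) := by
    refine (((top_c 1 n).add hρ.le h1).congr (by simp)).mono ?_
    have : e * (2 * 2 ^ n * C) ≤ 1 * (2 * 2 ^ n * C) :=
      mul_le_mul_of_nonneg_right he1 (by positivity)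
    simp only [abs_one]; linarith
  refine ⟨h1, h2, (((hX.mul hρ.le hn h2).smul (2 * e)).congr (by simp [idS]; ring)).mono ?_⟩
  rw [abs_of_pos (by positivity)]
  exact le_of_eq (by ring)

theorem top_inv {ρ C : ℝ} {n : ℕ} {W U : ℕ → ℝ} (hρ : 0 < ρ) (hC : 1 ≤ C) (hW : W 0 = ρ)
    (hU : U 0 = ρ⁻¹) (hWU : ∀ i, 1 ≤ i → lmul W U i = 0)
    (hP : ∀ i, i < n → |W (i + 1)| * ρ ^ i ≤ C) : Top ρ ((2 ^ n * C) ^ n / ρ) n U 0 := by
  have hA : (1 : ℝ) ≤ 2 ^ n * C := one_le_mul_of_one_le_of_one_le (one_le_pow₀ (by norm_num)) hC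
  refine Top.of_le fun i hi => (inv_bd hρ hC hW hU n (fun l hl _ => hWU l hl) ?_ i hi).trans ?_
  · intro l hl
    rcases l with _ | l
    · simp [hW, abs_of_pos hρ]; nlinarith
    · rw [pow_succ, ← mul_assoc]
      exact mul_le_mul_of_nonneg_right (hP l (by omega)) hρ.le
  · rw [div_eq_mul_inv]
    exact mul_le_mul_of_nonneg_right (pow_le_pow_right₀ hA hi) (by positivity)

/-- The differentiated equation (W). -/
theorem eqW_top (j : ℕ) (hj : 1 ≤ j) (C : ℝ) (hC : 1 ≤ C) : ∃ A : ℝ, 0 ≤ A ∧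
    ∀ (e ρ x : ℝ) (W K U : ℕ → ℝ), 0 < e → e ≤ 1 → 0 < ρ → 0 ≤ x → x ≤ 2 * ρ → W 0 = ρ →
      U 0 = ρ⁻¹ → (∀ i, 1 ≤ i → lmul W U i = 0) → (∀ i, i ≤ j → |W (i + 1)| * ρ ^ i ≤ C) →
      (∀ i, i ≤ j → |K i| * ρ ^ i ≤ e * C / ρ) →
      |RW e x W K U (j + 1) - (ZS e x K 0 * W (j + 3) +
        ((j + 1) * ZS e x K 1 + 1 + 2 * e * (1 - x * K 0) - 2 * ZS e x K 0 * W 1 / ρ) * W (j + 2) +
        2 * e * x * (x * W 1 ^ 2 / ρ - x * W 2 - W 1) * K (j + 1))| * ρ ^ (j + 1) ≤ e * A := by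
  set n := j + 1 with hn
  set c : ℝ := 2 ^ n with hc
  have hc0 : 0 < c := by positivity
  refine ⟨c * (4 * c * (1 + 2 * c * C)) * C +
    c * (4 * c * (1 + 2 * c * C)) * (c * (c * (C * C)) * (c * C) ^ n) +
    2 * (c * ((1 + 2 * c * C) * C)), by positivity, ?_⟩
  intro e ρ x W K U he he1 hρ h0 hx hW hU hWU hP hK
  have n1 : 1 ≤ n := by omega
  have tK : Top ρ (e * C / ρ) n K (K n) :=
    Top.of_low (by positivity) fun i hi => hK i (by omega)
  obtain ⟨-, tz, tZ⟩ := top_z n1 he he1 hρ (by linarith) h0 hx tK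
  have tP : Top ρ C n (sh W) (W (n + 1)) :=
    Top.of_low (a := sh W) (by linarith) fun i hi => hP i (by omega)
  have tU := top_inv (n := n) hρ hC hW hU hWU fun i hi => hP i (by omega)
  have a1 := lmul_two (b := sh (sh W)) (M' := C / ρ) hρ.le (by omega) (by positivity) tZ
    (fun i hi => by
      rw [le_div_iff₀ hρ, mul_assoc, ← pow_succ]
      exact hP (i + 1) (by omega))
  have a2 := (tZ.mul hρ.le n1 ((tP.mul hρ.le n1 tP).mul hρ.le n1 tU)).top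
  have a3 := (tz.mul hρ.le n1 tP).top
  rw [← hc] at a1 a2 a3
  simp only [lmul_zero, sh, zS_zero, hU] at a1 a2 a3
  set T1 := lmul (ZS e x K) (sh (sh W)) n - (ZS e x K 0 * W (n + 1 + 1) +
    n * (ZS e x K 1 * W (n - 1 + 1 + 1)) + -(2 * e * x ^ 2 * K n) * W (0 + 1 + 1)) with hT1
  set T2 := lmul (ZS e x K) (lmul (lmul (sh W) (sh W)) U) n -
    (ZS e x K 0 * (W (0 + 1) * W (0 + 1) * 0 + (W (0 + 1) * W (n + 1) + W (n + 1) * W (0 + 1)) * ρ⁻¹) +
      -(2 * e * x ^ 2 * K n) * (W (0 + 1) * W (0 + 1) * ρ⁻¹)) with hT2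
  set T3 := lmul (zS x K) (sh W) n - ((1 - x * K 0) * W (n + 1) + -(x * K n) * W (0 + 1)) with hT3
  have e1 : RW e x W K U n - (ZS e x K 0 * W (j + 3) +
      ((j + 1) * ZS e x K 1 + 1 + 2 * e * (1 - x * K 0) - 2 * ZS e x K 0 * W 1 / ρ) * W (j + 2) +
      2 * e * x * (x * W 1 ^ 2 / ρ - x * W 2 - W 1) * K n) = T1 + (-1) * T2 + 2 * e * T3 := by
    simp only [hT1, hT2, hT3, RW, cS, sh, hn, Nat.add_sub_cancel]
    push_cast
    ring
  rw [e1]
  have b1 : |T1 + (-1) * T2 + 2 * e * T3| ≤ |T1| + |T2| + 2 * e * |T3| := by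
    refine (abs_add_le _ _).trans (add_le_add ((abs_add_le _ _).trans ?_) ?_)
    · simp
    · rw [abs_mul, abs_of_pos (by positivity : 0 < 2 * e)]
  have hρn : 0 ≤ ρ ^ n := by positivity
  refine (mul_le_mul_of_nonneg_right b1 hρn).trans ?_
  have a3' := mul_le_mul_of_nonneg_left a3 (by positivity : 0 ≤ 2 * e)
  have q1 : c * (e * ρ * (4 * c * (1 + 2 * c * C)) * (C / ρ)) =
      e * (c * (4 * c * (1 + 2 * c * C)) * C) := by field_simp
  have q2 : c * (e * ρ * (4 * c * (1 + 2 * c * C)) * (c * (c * (C * C) * ((c * C) ^ n / ρ)))) =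
      e * (c * (4 * c * (1 + 2 * c * C)) * (c * (c * (C * C)) * (c * C) ^ n)) := by field_simp
  rw [q1] at a1
  rw [q2] at a2
  nlinarith

set_option maxHeartbeats 800000 in
/-- The differentiated equation (K), `j ≥ 1`. -/
theorem eqK_top (j : ℕ) (hj : 1 ≤ j) (C' : ℝ) (hC' : 1 ≤ C') : ∃ A' : ℝ, 0 ≤ A' ∧
    ∀ C : ℝ, 1 ≤ C → ∃ A : ℝ, 0 ≤ A ∧
    ∀ (e ρ x : ℝ) (W K U : ℕ → ℝ), 0 < e → e ≤ 1 → 0 < ρ → 0 ≤ x → x ≤ 2 * ρ → W 0 = ρ →
      U 0 = ρ⁻¹ → (∀ i, 1 ≤ i → lmul W U i = 0) → (∀ i, i < j → |W (i + 1)| * ρ ^ i ≤ C') →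
      (∀ i, i ≤ j → |W (i + 1)| * ρ ^ i ≤ C) → (∀ i, i ≤ j → |K i| * ρ ^ i ≤ e * C / ρ) →
      |RK e x W K U j - (ZS e x K 0 * K (j + 2) +
        (j * ZS e x K 1 + 4 * e * (1 - x * K 0) + 2 * e * x * (K 0 + x * K 1) + 1) * K (j + 1) +
        4 * e * W 1 / ρ ^ 2 * W (j + 1))| * ρ ^ j ≤ (e * A' + e ^ 2 * A) / ρ ^ 2 := by
  set c : ℝ := 2 ^ j with hc
  have hc0 : 0 < c := by positivity
  refine ⟨2 * (c * (c * (C' * C') * (c * ((c * C') ^ j * (c * C') ^ j)))), by positivity,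
    fun C hC => ⟨c * (4 * c * (1 + 2 * c * C)) * C + 4 * (c * ((1 + 2 * c * C) * C)) +
      c * (C * (1 + 2 * c)) ^ 2 + c * (C * C) +
      2 * (c * (c * (2 * c * C * (1 + 2 * c * C + 1)) *
        (c * (c * (C * C) * (c * ((c * C') ^ j * (c * C') ^ j)))))), by positivity, ?_⟩⟩
  intro e ρ x W K U he he1 hρ h0 hx hW hU hWU hP' hP hK
  have tK : Top ρ (e * C / ρ) j K 0 := Top.of_le hK
  have hK1 : ∀ i, i + 1 ≤ j → |K (i + 1)| * ρ ^ i ≤ e * C / ρ / ρ := fun i hi => by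
    rw [le_div_iff₀ hρ, mul_assoc, ← pow_succ]; exact hK (i + 1) hi
  have tK1 : Top ρ (e * C / ρ / ρ) j (sh K) (K (j + 1)) :=
    Top.of_low (a := sh K) (by positivity) fun i hi => hK1 i hi
  obtain ⟨tx, tz, tZ⟩ := top_z hj he he1 hρ (by linarith) h0 hx tK
  simp only [mul_zero, neg_zero] at tx tz tZ
  have tP' : Top ρ C' j (sh W) (W (j + 1)) := Top.of_low (a := sh W) (by linarith) hP'
  have tP : Top ρ C j (sh W) 0 := Top.of_le hP
  have tU := top_inv (n := j) hρ hC' hW hU hWU hP'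
  have tUU := tU.mul hρ.le hj tU
  have a1 := lmul_two0 (b := sh (sh K)) (M' := e * C / ρ / ρ / ρ) hρ.le (by positivity) tZ
    (fun i hi => by
      rw [le_div_iff₀ hρ, mul_assoc, ← pow_succ]
      exact hK1 (i + 1) (by omega))
  have a2 := (tz.mul hρ.le hj tK1).top
  have tQ : Top ρ (e * C * (1 + 2 * c) / ρ) j (QS x K) (x * K (j + 1)) :=
    ((tK.add hρ.le ((top_id hρ.le h0 hx j).mul hρ.le hj tK1)).congr (by simp [idS])).mono
      (le_of_eq (by rw [← hc]; field_simp))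
  have a3 := (tQ.mul hρ.le hj tQ).top
  have a4 := (tK.mul hρ.le hj tK).top
  have a5 := ((tP'.mul hρ.le hj tP').mul hρ.le hj tUU).top
  have a6 := ((tx.mul hρ.le hj (tz.add hρ.le (top_c 1 j))).mul hρ.le hj
    ((tP.mul hρ.le hj tP).mul hρ.le hj tUU)).top
  rw [← hc] at a1 a2 a3 a4 a5 a6
  simp only [lmul_zero, zS_zero, hU, mul_zero, zero_mul, add_zero, sub_zero, abs_one] at a1 a2 a3 a4 a5 a6
  have hj1 : j - 1 + 1 + 1 = j + 1 := by omega
  set T1 := lmul (ZS e x K) (sh (sh K)) j -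
    (ZS e x K 0 * sh (sh K) j + j * (ZS e x K 1 * sh (sh K) (j - 1))) with hT1
  set T2 := lmul (zS x K) (sh K) j - (1 - x * K 0) * K (j + 1) with hT2
  set T3 := lmul (QS x K) (QS x K) j -
    (QS x K 0 * (x * K (j + 1)) + x * K (j + 1) * QS x K 0) with hT3
  set T4 := lmul K K j with hT4
  set T5 := lmul (lmul (sh W) (sh W)) (lmul U U) j -
    (0 + (sh W 0 * W (j + 1) + W (j + 1) * sh W 0) * (ρ⁻¹ * ρ⁻¹)) with hT5
  set T6 := lmul (DS x K) (GS W U) j with hT6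
  have e1 : RK e x W K U j - (ZS e x K 0 * K (j + 2) +
      (j * ZS e x K 1 + 4 * e * (1 - x * K 0) + 2 * e * x * (K 0 + x * K 1) + 1) * K (j + 1) +
      4 * e * W 1 / ρ ^ 2 * W (j + 1)) =
      T1 + 4 * e * T2 + e * T3 + T4 + 2 * e * T5 + 2 * e * T6 := by
    simp only [hT1, hT2, hT3, hT4, hT5, hT6, RK, GS, sh, hj1, QS, lmul_zero, idS, if_true]
    field_simp
    ring
  rw [e1]
  have b1 : |T1 + 4 * e * T2 + e * T3 + T4 + 2 * e * T5 + 2 * e * T6| ≤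
      |T1| + 4 * e * |T2| + e * |T3| + |T4| + 2 * e * |T5| + 2 * e * |T6| := by
    have f1 : |4 * e * T2| = 4 * e * |T2| := by rw [abs_mul, abs_of_pos (by positivity)]
    have f2 : |e * T3| = e * |T3| := by rw [abs_mul, abs_of_pos he]
    have f3 : |2 * e * T5| = 2 * e * |T5| := by rw [abs_mul, abs_of_pos (by positivity)]
    have f4 : |2 * e * T6| = 2 * e * |T6| := by rw [abs_mul, abs_of_pos (by positivity)]
    rw [← f1, ← f2, ← f3, ← f4]
    refine (abs_add_le _ _).trans (add_le_add_left ?_ _)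
    refine (abs_add_le _ _).trans (add_le_add_left ?_ _)
    refine (abs_add_le _ _).trans (add_le_add_left ?_ _)
    refine (abs_add_le _ _).trans (add_le_add_left ?_ _)
    exact abs_add_le _ _
  have hρn : 0 ≤ ρ ^ j := by positivity
  refine (mul_le_mul_of_nonneg_right b1 hρn).trans ?_
  have a2' := mul_le_mul_of_nonneg_left a2 (by positivity : 0 ≤ 4 * e)
  have a3' := mul_le_mul_of_nonneg_left a3 he.le
  have a5' := mul_le_mul_of_nonneg_left a5 (by positivity : 0 ≤ 2 * e)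
  have a6' : 2 * e * (|T6| * ρ ^ j) ≤ _ := mul_le_mul_of_nonneg_left a6 (by positivity : 0 ≤ 2 * e)
  have a3'' : e * (c * (e * C * (1 + 2 * c) / ρ * (e * C * (1 + 2 * c) / ρ))) ≤
      1 * (c * (e * C * (1 + 2 * c) / ρ * (e * C * (1 + 2 * c) / ρ))) :=
    mul_le_mul_of_nonneg_right he1 (by positivity)
  have key : c * (e * ρ * (4 * c * (1 + 2 * c * C)) * (e * C / ρ / ρ / ρ)) +
      4 * e * (c * ((1 + 2 * c * C) * (e * C / ρ / ρ))) +
      1 * (c * (e * C * (1 + 2 * c) / ρ * (e * C * (1 + 2 * c) / ρ))) +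
      c * (e * C / ρ * (e * C / ρ)) +
      2 * e * (c * (c * (C' * C') * (c * ((c * C') ^ j / ρ * ((c * C') ^ j / ρ))))) +
      2 * e * (c * (c * (e * (2 * c * C) * (1 + 2 * c * C + 1)) *
        (c * (c * (C * C) * (c * ((c * C') ^ j / ρ * ((c * C') ^ j / ρ))))))) =
      (e * (2 * (c * (c * (C' * C') * (c * ((c * C') ^ j * (c * C') ^ j))))) +
      e ^ 2 * (c * (4 * c * (1 + 2 * c * C)) * C + 4 * (c * ((1 + 2 * c * C) * C)) +
      c * (C * (1 + 2 * c)) ^ 2 + c * (C * C) +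
      2 * (c * (c * (2 * c * C * (1 + 2 * c * C + 1)) *
        (c * (c * (C * C) * (c * ((c * C') ^ j * (c * C') ^ j)))))))) / ρ ^ 2 := by
    field_simp
    ring
  rw [← key]
  have e2 : (|T1| + 4 * e * |T2| + e * |T3| + |T4| + 2 * e * |T5| + 2 * e * |T6|) * ρ ^ j =
      |T1| * ρ ^ j + 4 * e * (|T2| * ρ ^ j) + e * (|T3| * ρ ^ j) + |T4| * ρ ^ j +
        2 * e * (|T5| * ρ ^ j) + 2 * e * (|T6| * ρ ^ j) := by ring
  rw [e2]
  exact add_le_add (add_le_add (add_le_add (add_le_add (add_le_add a1 a2') (a3'.trans a3'')) a4)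
    a5') a6'

end

end Crest.Agent.N207.S.Rg
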