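import Crest.Agent.N207.S.Rg.Alg

/-!
Row 207 (S0320), REG: the pointwise inequalities for the Bernstein functions.
-/

set_option autoImplicit false

open Set

namespace Crest.Agent.N207.S.Rg

noncomputable section

/-- The coefficient of the `η` part. -/
def cc (j : ℕ) : ℝ := if j = 0 then 0 else 1

/-- `Φ = c u² + v²/64`. -/
def Ph (c u v : ℝ) : ℝ := c * u ^ 2 + v ^ 2 / 64
/-- First derivative of `Φ`. -/
def Ph1 (c u u1 v v1 : ℝ) : ℝ := 2 * c * u * u1 + v * v1 / 32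
/-- Second derivative of `Φ`. -/
def Ph2 (c u u1 u2 v v1 v2 : ℝ) : ℝ := 2 * c * (u1 ^ 2 + u * u2) + (v1 ^ 2 + v * v2) / 32

/-- `Φ_j`. -/
def PhJ (j : ℕ) (e w : ℝ) (H K : ℕ → ℝ) : ℝ := Ph (cc j) (g0 j w (H (j + 1))) (g0 (j + 1) w (K j / e))

/-- The derivative of `Φ_j` in a direction in which `w`, `H (j+1)`, `K j` have the derivatives
`w1`, `h1`, `k1`. -/
def PhJ1 (j : ℕ) (e w w1 : ℝ) (H K : ℕ → ℝ) (h1 k1 : ℝ) : ℝ :=
  Ph1 (cc j) (g0 j w (H (j + 1))) (g1 j w w1 (H (j + 1)) h1) (g0 (j + 1) w (K j / e))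
    (g1 (j + 1) w w1 (K j / e) (k1 / e))

/-- The second space derivative of `Φ_j`. -/
def PhJ2 (j : ℕ) (e w w1 w2 : ℝ) (H K : ℕ → ℝ) : ℝ :=
  Ph2 (cc j) (g0 j w (H (j + 1))) (g1 j w w1 (H (j + 1)) (H (j + 2)))
    (g2 j w w1 w2 (H (j + 1)) (H (j + 2)) (H (j + 3))) (g0 (j + 1) w (K j / e))
    (g1 (j + 1) w w1 (K j / e) (K (j + 1) / e))
    (g2 (j + 1) w w1 w2 (K j / e) (K (j + 1) / e) (K (j + 2) / e))

/-- The elementary bounds near the tip. -/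
theorem near_elem {e ρ x k0 k1 P C : ℝ} (he : 0 < e) (hρ : 0 < ρ) (h0 : 0 ≤ x) (hx : x ≤ 2 * ρ)
    (heC : e * C ≤ 1 / 8) (hP : |P| ≤ 2) (a0 : |k0| * ρ ≤ e * C) (a1 : |k1| * ρ ^ 2 ≤ e * C) :
    |ρ * k0| ≤ 1 / 8 ∧ |ρ * (x * k1)| ≤ 1 / 4 ∧ |x * k0| ≤ 1 / 4 ∧ |x * (x * k1)| ≤ 1 / 2 ∧
      e * x ^ 2 ≤ 2 * (ρ * (2 * e * x * (1 - x * k0))) ∧
      |2 * e * x * (1 - x * k0) * P| ≤ 5 * (e * x) ∧
      |2 * e * x * (1 - x * k0) * P / ρ| ≤ 10 * e ∧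
      |2 * e * x * (1 - x * k0) * P ^ 2 / ρ| ≤ 20 * e := by
  have b0 : |ρ * k0| ≤ 1 / 8 := by rw [abs_mul, abs_of_pos hρ]; linarith
  have b1 : |ρ * (x * k1)| ≤ 1 / 4 := by
    rw [abs_mul, abs_mul, abs_of_pos hρ, abs_of_nonneg h0]
    have : x * (ρ * |k1|) ≤ 2 * ρ * (ρ * |k1|) := by gcongr
    nlinarith
  have b2 : |x * k0| ≤ 1 / 4 := by
    rw [abs_mul, abs_of_nonneg h0]
    have : x * |k0| ≤ 2 * ρ * |k0| := by gcongr
    nlinarith
  have b3 : |x * (x * k1)| ≤ 1 / 2 := by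
    rw [abs_mul, abs_of_nonneg h0]
    rw [abs_mul, abs_of_pos hρ] at b1
    have : x * |x * k1| ≤ 2 * ρ * |x * k1| := by gcongr
    nlinarith
  have hz := abs_le.1 b2
  have b5 : |2 * e * x * (1 - x * k0) * P| ≤ 5 * (e * x) := by
    have := ab_mul (ab_mul (ab_nn (a := 2 * e * x) (by positivity))
      (show |1 - x * k0| ≤ 5 / 4 from abs_le.2 ⟨by linarith, by linarith⟩)) hP
    linarith
  have b6 : |2 * e * x * (1 - x * k0) * P / ρ| ≤ 10 * e := by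
    rw [abs_div, abs_of_pos hρ, div_le_iff₀ hρ]
    have : e * x ≤ e * (2 * ρ) := by gcongr
    linarith
  refine ⟨b0, b1, b2, b3, ?_, b5, b6, ?_⟩
  · have h1 : e * x * x ≤ e * x * (2 * ρ) := by gcongr
    have h2 : ρ * (e * x) * (3 / 4) ≤ ρ * (e * x) * (1 - x * k0) := by gcongr; linarith
    have h3 : 0 ≤ ρ * (e * x) := by positivity
    nlinarith
  · rw [show 2 * e * x * (1 - x * k0) * P ^ 2 / ρ = 2 * e * x * (1 - x * k0) * P / ρ * P by ring]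
    have := ab_mul b6 hP
    linarith

/-- The weighted equation of `k`. -/
theorem veq (j : ℕ) {e ρ x P w2 wt Z β bV s k0 k1 k2 kt c u R A' A C : ℝ} (he : 0 < e)
    (hρ : 0 < ρ) (hP : |P| ≤ 2) (hw : wt = Z * w2 + β * P - Z * P ^ 2 / ρ - 1)
    (hk : kt = Z * k2 + bV * k1 + 4 * e * P / ρ ^ 2 * (c * u) + R)
    (h1 : |ρ * (bV - s)| ≤ (j + 1) * (e * x)) (h2 : |β - bV| ≤ e * (4 * (j + 1)))
    (h3 : |R| * ρ ^ j ≤ (e * A' + e ^ 2 * A) / ρ ^ 2) (h4 : |Z * P| ≤ 5 * (e * x))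
    (h5 : |Z * P ^ 2 / ρ| ≤ 20 * e) (hV : |g0 (j + 1) ρ (k0 / e)| ≤ C) :
    ∃ dV rV, ρ * g1 (j + 1) ρ wt (k0 / e) (kt / e) =
      ρ * Z * g2 (j + 1) ρ P w2 (k0 / e) (k1 / e) (k2 / e) +
        (ρ * s + dV) * g1 (j + 1) ρ P (k0 / e) (k1 / e) - (j + 1) * g0 (j + 1) ρ (k0 / e) +
        4 * P * (c * g0 j ρ u) + rV ∧ |dV| ≤ e * (11 * (j + 1)) * x ∧
        |rV| ≤ A' + e * (A + C * (28 * (j + 1) ^ 2)) := by
  have hf := wt_form (j + 1) (f0 := k0 / e) (f1 := k1 / e) (f2 := k2 / e) (ft := kt / e) (b := bV)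
    (r := 4 * P / ρ ^ 2 * (c * u) + R / e) hρ.ne' hw (by rw [hk]; field_simp; ring)
  have hj : (0 : ℝ) ≤ j + 1 := by positivity
  refine ⟨ρ * (bV - s) - 2 * (j + 1) * (Z * P), ρ ^ (j + 2) * (R / e) + g0 (j + 1) ρ (k0 / e) *
    ((j + 1) * ((β - bV) * P) + (j + 1) * (j + 1) * (Z * P ^ 2 / ρ)), ?_, ?_, ?_⟩
  · rw [hf]
    simp only [g0]
    push_cast
    field_simp
    ring
  · have := ab_sub h1 (ab_mul (ab_nn (a := 2 * ((j : ℝ) + 1)) (by positivity)) h4)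
    linarith
  · have a1 : |ρ ^ (j + 2) * (R / e)| ≤ A' + e * A := by
      rw [le_div_iff₀ (by positivity)] at h3
      rw [abs_mul, abs_div, abs_of_pos he, abs_of_pos (by positivity), ← mul_div_assoc,
        div_le_iff₀ he, pow_add]
      linarith
    have a2 := ab_mul hV (ab_add (ab_mul (ab_nn hj) (ab_mul h2 hP))
      (ab_mul (ab_nn (mul_nonneg hj hj)) h5))
    have := ab_add a1 a2
    linarith

/-- The weighted equation of `η'`. -/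
theorem ueq (j : ℕ) {e ρ x P w2 wt Z β bU s p0 p1 p2 pt k0 k1 g R A C : ℝ} (he : 0 < e)
    (he1 : e ≤ 1) (hρ : 0 < ρ) (h0 : 0 ≤ x) (hx : x ≤ 2 * ρ) (hP : |P| ≤ 2)
    (hw : wt = Z * w2 + β * P - Z * P ^ 2 / ρ - 1)
    (hk : pt = Z * p2 + bU * p1 + 2 * e * x * g * k1 + R)
    (h1 : |ρ * (bU - s)| ≤ 12 * (j + 1) * (e * x)) (h2 : |β - bU| ≤ e * (24 * (j + 1)))
    (h3 : |R| * ρ ^ (j + 1) ≤ e * A) (h4 : |Z * P| ≤ 5 * (e * x))
    (h5 : |Z * P ^ 2 / ρ| ≤ 20 * e) (hg : |g| ≤ 10 + 2 * C) (hU : |g0 j ρ p0| ≤ C)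
    (hV : |g0 (j + 1) ρ (k0 / e)| ≤ C) :
    ∃ dU gU rU, ρ * g1 j ρ wt p0 pt = ρ * Z * g2 j ρ P w2 p0 p1 p2 +
        (ρ * s + dU) * g1 j ρ P p0 p1 + gU * g1 (j + 1) ρ P (k0 / e) (k1 / e) - j * g0 j ρ p0 + rU ∧
        |dU| ≤ e * (22 * (j + 1)) * x ∧ |gU| ≤ e * (20 + 4 * C) * x ∧
        |rU| ≤ e * (A + C * (68 * (j + 1) ^ 2) + 8 * (10 + 2 * C) * (j + 1) * C) := by
  have hf := wt_form j (f0 := p0) (f1 := p1) (f2 := p2) (ft := pt) (b := bU)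
    (r := 2 * e * x * g * k1 + R) hρ.ne' hw (by rw [hk]; ring)
  have hj : (0 : ℝ) ≤ j := by positivity
  have hj1 : |(j : ℝ)| ≤ j + 1 := by rw [abs_of_nonneg hj]; linarith
  have hC : 0 ≤ C := (abs_nonneg _).trans hU
  refine ⟨ρ * (bU - s) - 2 * j * (Z * P), e * (2 * e * x) * g, ρ ^ (j + 1) * R + g0 j ρ p0 *
    (j * ((β - bU) * P) + j * j * (Z * P ^ 2 / ρ)) -
    e * (2 * e * (x / ρ)) * g * (j + 1) * P * g0 (j + 1) ρ (k0 / e), ?_, ?_, ?_, ?_⟩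
  · rw [hf]
    simp only [g0, g1]
    push_cast
    field_simp
    ring
  · have := ab_sub h1 (ab_mul (ab_mul (ab_nn (a := 2) (by norm_num)) hj1) h4)
    linarith
  · have a1 : |e * (2 * e * x)| ≤ 1 * (2 * e * x) := by
      rw [abs_of_nonneg (by positivity)]; gcongr
    have := ab_mul a1 hg
    linarith
  · have a1 : |ρ ^ (j + 1) * R| ≤ e * A := by
      rw [abs_mul, abs_of_pos (by positivity)]; linarith
    have a2 := ab_mul hU (ab_add (ab_mul hj1 (ab_mul h2 hP)) (ab_mul (ab_mul hj1 hj1) h5))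
    have a3 : |e * (2 * e * (x / ρ))| ≤ 1 * (2 * e * 2) := by
      rw [abs_of_nonneg (by positivity)]
      have : x / ρ ≤ 2 := by rw [div_le_iff₀ hρ]; linarith
      gcongr
    have a4 := ab_mul (ab_mul (ab_mul (ab_mul a3 hg) (ab_nn (a := (j : ℝ) + 1) (by positivity))) hP) hV
    have := ab_sub (ab_add a1 a2) a4
    linarith

theorem g0_bd {j : ℕ} {ρ a C : ℝ} (hρ : 0 < ρ) (h : |a| * ρ ^ j ≤ C) : |g0 j ρ a| ≤ C := by
  rw [g0, abs_mul, abs_of_pos (by positivity), mul_comm]; exact h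

theorem g0_bd' {j : ℕ} {ρ a C e : ℝ} (hρ : 0 < ρ) (he : 0 < e) (h : |a| * ρ ^ j ≤ e * C) :
    |g0 j ρ (a / e)| ≤ C := by
  refine g0_bd hρ ?_
  rw [abs_div, abs_of_pos he, div_mul_eq_mul_div, div_le_iff₀ he]; linarith

/-- The pointwise inequality near the tip. -/
theorem near_pt (j : ℕ) (C' : ℝ) : ∃ A' : ℝ, ∀ C : ℝ, ∃ B : ℝ, 0 ≤ B ∧
    ∀ (e x : ℝ) (W H K Wt Kt U : ℕ → ℝ), 1 ≤ C' → 2 ≤ C → 0 < e → e * C ≤ 1 / 8 → 0 < W 0 →
      0 ≤ x → x ≤ 2 * W 0 → |W 1| ≤ 2 → (∀ i, W (i + 2) = H (i + 2)) →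
      U 0 = (W 0)⁻¹ → (∀ i, 1 ≤ i → lmul W U i = 0) →
      Wt 0 = rhsW e x (W 0) (W 1) (W 2) (K 0) → Kt 0 = rhsK e x (W 0) (W 1) (K 0) (K 1) (K 2) →
      (∀ n, Wt n = RW e x W K U n) → (∀ n, Kt n = RK e x W K U n) →
      (∀ i, i < j → |W (i + 1)| * W 0 ^ i ≤ C') →
      (∀ i, i ≤ max j 1 → |W (i + 1)| * W 0 ^ i ≤ C ∧ |K i| * W 0 ^ (i + 1) ≤ e * C) →
      W 0 * (PhJ1 j e (W 0) (Wt 0) H K (Wt (j + 1)) (Kt j) -
        2 * e * x * (1 - x * K 0) * PhJ2 j e (W 0) (W 1) (W 2) H K -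
        (1 + 2 * e * (j + 2)) * PhJ1 j e (W 0) (W 1) H K (H (j + 2)) (K (j + 1))) ≤
        -PhJ j e (W 0) H K + A' ^ 2 / 64 + e * B := by
  rcases Nat.eq_zero_or_pos j with rfl | hj
  · refine ⟨13, fun C => ⟨131 * ((2 * C ^ 2 + C * 28 + 11) ^ 2 * C ^ 2) +
      3 * |(2 * C ^ 2 + C * 28 + 11) * C|, by positivity, ?_⟩⟩
    intro e x W H K Wt Kt U hC' hC he heC hρ h0 hx hP hH hU hWU hW0 hK0 _ _ _ hb
    set ρ := W 0 with hρd
    have he1 : e ≤ 1 := by nlinarith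
    have a0 := (hb 0 (by simp)).2
    have a1 := (hb 1 (by simp)).2
    rw [zero_add, pow_one] at a0
    obtain ⟨b0, b1, b2, b3, b4, b5, b6, b7⟩ := near_elem he hρ h0 hx heC hP a0 a1
    have hV := g0_bd' (j := 0 + 1) hρ he (hb 0 (by simp)).2
    have hex : 0 ≤ e * x := by positivity
    have hz := abs_le.1 b2
    obtain ⟨dV, rV, q1, q2, q3⟩ := veq 0 (s := 1 + 2 * e * (0 + 2)) (c := 0) (u := H 1) (A' := 13)
      (A := 2 * C ^ 2) (w2 := W 2) (wt := Wt 0) (Z := 2 * e * x * (1 - x * K 0))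
      (β := 1 + 2 * e * (1 - x * K 0)) (k0 := K 0) (k1 := K 1) (k2 := K 2) (kt := Kt 0)
      (bV := 4 * e * (1 - x * K 0) + e * x * (2 * K 0 + x * K 1) + 1)
      (R := (1 + e) * K 0 ^ 2 + 2 * e * (1 - x * K 0) ^ 2 * W 1 ^ 2 / ρ ^ 2) he hρ hP
      (by rw [hW0, rhsW]; ring) (by rw [hK0, rhsK]; ring)
      (by
        rw [show ρ * (4 * e * (1 - x * K 0) + e * x * (2 * K 0 + x * K 1) + 1 - (1 + 2 * e * (0 + 2))) =
          e * x * (ρ * (x * K 1) - 2 * (ρ * K 0)) by ring]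
        have := ab_mul (ab_nn hex) (ab_sub b1 (ab_mul (ab_nn (a := 2) (by norm_num)) b0))
        push_cast; linarith)
      (by
        rw [show 1 + 2 * e * (1 - x * K 0) - (4 * e * (1 - x * K 0) + e * x * (2 * K 0 + x * K 1) + 1) =
          e * (-2 - x * (x * K 1)) by ring]
        have := ab_mul (ab_nn he.le) (ab_sub (show |(-2 : ℝ)| ≤ 2 by norm_num) b3)
        push_cast; linarith)
      (by
        rw [pow_zero, mul_one, le_div_iff₀ (by positivity), abs_of_nonneg (by positivity)]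
        have c1 : (ρ * K 0) ^ 2 ≤ (e * C) ^ 2 := by
          rw [← sq_abs]; refine pow_le_pow_left₀ (abs_nonneg _) ?_ 2
          rw [abs_mul, abs_of_pos hρ]; linarith
        have c2 : ((1 - x * K 0) * W 1) ^ 2 ≤ (5 / 4 * 2) ^ 2 := by
          rw [← sq_abs]
          exact pow_le_pow_left₀ (abs_nonneg _) (ab_mul (abs_le.2 ⟨by linarith, by linarith⟩) hP) 2
        have c3 : (1 + e) * (ρ * K 0) ^ 2 ≤ 2 * (e * C) ^ 2 := by gcongr; linarith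
        have c4 := mul_le_mul_of_nonneg_left c2 he.le
        have c5 : ((1 + e) * K 0 ^ 2 + 2 * e * (1 - x * K 0) ^ 2 * W 1 ^ 2 / ρ ^ 2) * ρ ^ 2 =
          (1 + e) * (ρ * K 0) ^ 2 + 2 * (e * ((1 - x * K 0) * W 1) ^ 2) := by field_simp
        rw [c5]; linarith) b5 b7 hV
    have hCC : 0 ≤ e * (C ^ 2) ∧ 0 ≤ e * C ∧ 0 ≤ e * x * C ^ 2 ∧ 0 ≤ e * x * C :=
      ⟨by positivity, by positivity, by positivity, by positivity⟩
    have := core_near (c := 0) (j := ((0 : ℕ) : ℝ)) (U := g0 0 ρ (H (0 + 1)))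
      (U1 := g1 0 ρ (W 1) (H (0 + 1)) (H (0 + 2))) (Ut := g1 0 ρ (Wt 0) (H (0 + 1)) (Wt (0 + 1)))
      (U2 := g2 0 ρ (W 1) (W 2) (H (0 + 1)) (H (0 + 2)) (H (0 + 3))) (dU := 0) (gU := 0) (rU := 0)
      (A := 2 * C ^ 2 + C * 28 + 11) (A' := 13) (C := C) he h0 b4 hP (by positivity)
      (by simp; linarith) hV (Or.inl ⟨rfl, by simp⟩) (by simp) q1 (by simp; positivity)
      (by simp; positivity) (by simp; positivity) (by push_cast at q2; linarith)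
      (by push_cast at q3; linarith)
    rw [abs_of_pos (by positivity)]
    simpa only [PhJ, PhJ1, PhJ2, Ph, Ph1, Ph2, cc, if_true, Nat.cast_zero] using this
  · obtain ⟨A', hA', hA⟩ := eqK_top j hj (max C' 1) (le_max_right _ _)
    refine ⟨A', fun C => ?_⟩
    obtain ⟨AK, hAK, hK⟩ := hA (max C 1) (le_max_right _ _)
    obtain ⟨AW, hAW, hW⟩ := eqW_top j hj (max C 1) (le_max_right _ _)
    set A : ℝ := AK + AW + |C| * (96 * (j + 1) ^ 2) + 8 * (10 + 2 * |C|) * (j + 1) * |C| +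
      22 * (j + 1) + (20 + 4 * |C|) with hAd
    refine ⟨131 * (A ^ 2 * C ^ 2) + 3 * (A * |C|), by positivity, ?_⟩
    intro e x W H K Wt Kt U hC' hC he heC hρ h0 hx hP hH hU hWU hW0 _ hWt hKt hb' hb
    rw [max_eq_left hC'] at hK
    rw [max_eq_left (show 1 ≤ C by linarith)] at hK hW
    rw [abs_of_pos (show 0 < C by linarith)] at hAd ⊢
    rw [max_eq_left hj] at hb
    set ρ := W 0 with hρd
    have he1 : e ≤ 1 := by nlinarith
    have a0 := (hb 0 (by simp)).2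
    have a1 := (hb 1 hj).2
    have a2 := (hb 1 hj).1
    rw [zero_add, pow_one] at a0
    rw [pow_one] at a2
    obtain ⟨b0, b1, b2, b3, b4, b5, b6, b7⟩ := near_elem he hρ h0 hx heC hP a0 a1
    have hV := g0_bd' hρ he (hb j le_rfl).2
    have hUb := g0_bd hρ (hb j le_rfl).1
    have hKb : ∀ i, i ≤ j → |K i| * ρ ^ i ≤ e * C / ρ := fun i hi => by
      rw [le_div_iff₀ hρ, mul_assoc, ← pow_succ]; exact (hb i hi).2
    have eK := hK e ρ x W K U he he1 hρ h0 hx rfl hU hWU hb' (fun i hi => (hb i hi).1) hKb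
    have eW := hW e ρ x W K U he he1 hρ h0 hx rfl hU hWU (fun i hi => (hb i hi).1) hKb
    rw [← hKt, ZS_zero, ZS_one] at eK
    rw [← hWt, ZS_zero, ZS_one] at eW
    have hex : 0 ≤ e * x := by positivity
    have hj0 : (0 : ℝ) ≤ j := by positivity
    have hj1 : (1 : ℝ) ≤ j := by exact_mod_cast hj
    have n2 : |(2 : ℝ)| ≤ 2 := by norm_num
    have hw : Wt 0 = 2 * e * x * (1 - x * K 0) * W 2 + (1 + 2 * e * (1 - x * K 0)) * W 1 -
        2 * e * x * (1 - x * K 0) * W 1 ^ 2 / ρ - 1 := by rw [hW0, rhsW]; ring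
    have d1 := ab_add (ab_mul n2 b0) b1
    have d2 := ab_add (ab_mul n2 b2) b3
    have p1 : 0 ≤ j * (e * x) := by positivity
    have p2 : 0 ≤ j * e := by positivity
    obtain ⟨dV, rV, q1, q2, q3⟩ := veq j (s := 1 + 2 * e * (j + 2)) (c := 1) (u := W (j + 1))
      (k0 := K j) (k1 := K (j + 1)) (k2 := K (j + 2)) (kt := Kt j) he hρ hP hw
      (bV := j * (2 * e * (1 - 2 * (x * K 0) - x ^ 2 * K 1)) + 4 * e * (1 - x * K 0) +
        2 * e * x * (K 0 + x * K 1) + 1) (by rw [one_mul, add_sub_cancel])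
      (by
        rw [show ρ * (j * (2 * e * (1 - 2 * (x * K 0) - x ^ 2 * K 1)) + 4 * e * (1 - x * K 0) +
          2 * e * x * (K 0 + x * K 1) + 1 - (1 + 2 * e * (j + 2))) = e * x * (2 * (ρ * (x * K 1) - ρ * K 0) -
            2 * j * (2 * (ρ * K 0) + ρ * (x * K 1))) by ring]
        have := ab_mul (ab_nn hex) (ab_sub (ab_mul n2 (ab_sub b1 b0))
          (ab_mul (ab_mul n2 (ab_nn hj0)) d1))
        linarith)
      (by
        rw [show 1 + 2 * e * (1 - x * K 0) - (j * (2 * e * (1 - 2 * (x * K 0) - x ^ 2 * K 1)) +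
          4 * e * (1 - x * K 0) + 2 * e * x * (K 0 + x * K 1) + 1) = e * (2 * j * (2 * (x * K 0) +
            x * (x * K 1)) - 2 * j - 2 - 2 * (x * (x * K 1))) by ring]
        have := ab_mul (ab_nn he.le) (ab_sub (ab_sub (ab_sub (ab_mul (ab_mul n2 (ab_nn hj0)) d2)
          (ab_mul n2 (ab_nn hj0))) n2) (ab_mul n2 b3))
        linarith) eK b5 b7 hV
    obtain ⟨dU, gU, rU, r1, r2, r3, r4⟩ := ueq j (s := 1 + 2 * e * (j + 2)) (p0 := W (j + 1))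
      (p1 := W (j + 2)) (p2 := W (j + 3)) (pt := Wt (j + 1)) (k0 := K j) (k1 := K (j + 1))
      (g := x * W 1 ^ 2 / ρ - x * W 2 - W 1) he he1 hρ h0 hx hP hw
      (bU := (j + 1) * (2 * e * (1 - 2 * (x * K 0) - x ^ 2 * K 1)) + 1 + 2 * e * (1 - x * K 0) -
        2 * (2 * e * x * (1 - x * K 0)) * W 1 / ρ) (by rw [add_sub_cancel])
      (by
        rw [show ρ * ((j + 1) * (2 * e * (1 - 2 * (x * K 0) - x ^ 2 * K 1)) + 1 +
          2 * e * (1 - x * K 0) - 2 * (2 * e * x * (1 - x * K 0)) * W 1 / ρ - (1 + 2 * e * (j + 2))) =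
          -(e * x * (2 * (j + 1) * (2 * (ρ * K 0) + ρ * (x * K 1)) + 2 * (ρ * K 0)) +
            2 * (2 * e * x * (1 - x * K 0) * W 1)) by field_simp; ring, abs_neg]
        have := ab_add (ab_mul (ab_nn hex) (ab_add (ab_mul (ab_mul n2
          (ab_nn (show (0 : ℝ) ≤ j + 1 by positivity))) d1) (ab_mul n2 b0))) (ab_mul n2 b5)
        linarith)
      (by
        rw [show 1 + 2 * e * (1 - x * K 0) - ((j + 1) * (2 * e * (1 - 2 * (x * K 0) - x ^ 2 * K 1)) +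
          1 + 2 * e * (1 - x * K 0) - 2 * (2 * e * x * (1 - x * K 0)) * W 1 / ρ) =
          2 * (2 * e * x * (1 - x * K 0) * W 1 / ρ) - e * (2 * (j + 1) *
            (1 - (2 * (x * K 0) + x * (x * K 1)))) by ring]
        have := ab_sub (ab_mul n2 b6) (ab_mul (ab_nn he.le) (ab_mul (ab_mul n2
          (ab_nn (show (0 : ℝ) ≤ j + 1 by positivity))) (ab_sub abs_one.le d2)))
        linarith) eW b5 b7
      (by
        have c1 : |x * W 1 ^ 2 / ρ| ≤ 2 * (2 * 2) := by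
          rw [show x * W 1 ^ 2 / ρ = x / ρ * (W 1 * W 1) by ring]
          refine ab_mul ?_ (ab_mul hP hP)
          rw [abs_of_nonneg (by positivity), div_le_iff₀ hρ]; exact hx
        have c2 : |x * W 2| ≤ 2 * C := by
          have := ab_mul (show |x| ≤ 2 * ρ by rwa [abs_of_nonneg h0]) (le_refl |W 2|)
          linarith
        linarith [ab_sub (ab_sub c1 c2) hP]) hUb hV
    have hC0 : 0 ≤ C := by linarith
    have t1 : 0 ≤ C * (j + 1) ^ 2 := by positivity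
    have t2 : 0 ≤ (10 + 2 * C) * (j + 1) * C := by positivity
    have u1 : ∀ y : ℝ, y ≤ A → e * y * x ≤ e * A * x := fun y hy => by gcongr
    have u2 : ∀ y : ℝ, y ≤ A → e * y ≤ e * A := fun y hy => by gcongr
    have := core_near (c := 1) (A := A) (A' := A') (C := C) he h0 b4 hP (by positivity)
      (by rwa [one_mul]) hV (Or.inr ⟨rfl, hj1⟩) (congrArg (1 * ·) r1) q1
      (r2.trans (u1 _ (by linarith))) (r3.trans (u1 _ (by linarith)))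
      (r4.trans (u2 _ (by linarith))) (q2.trans (u1 _ (by linarith)))
      (q3.trans (add_le_add_right (u2 _ (by linarith)) _))
    obtain ⟨i, rfl⟩ : ∃ i, j = i + 1 := ⟨j - 1, by omega⟩
    simp only [PhJ, PhJ1, PhJ2, Ph, Ph1, Ph2, cc, Nat.succ_ne_zero, if_false, ← hH i,
      ← hH (i + 1), ← hH (i + 2)]
    exact this

/-- Weighting an equation away from the tip. -/
theorem far_w (a : ℕ) {N L w w1 w2 wt f f1 f2 ft Z s μ r : ℝ} (hN : 1 ≤ N) (hw : 0 < w)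
    (hi : w⁻¹ ≤ N) (hL : w ^ a ≤ L) (hL' : w⁻¹ ^ a ≤ L) (ha : (a : ℝ) ≤ N) (h1 : |w1| ≤ N)
    (h2 : |w2| ≤ N) (ht : |wt| ≤ N) (hs : |s| ≤ N) (hZ0 : 0 ≤ Z) (hZ : Z ≤ N * μ) (hμ : μ ≤ 1)
    (hf : |f| ≤ N) (he : ft = Z * f2 + s * f1 + r) :
    |g0 a w f| ≤ L * N ∧ |f1| ≤ L * |g1 a w w1 f f1| + N ^ 4 ∧
    ∃ R, g1 a w wt f ft = Z * g2 a w w1 w2 f f1 f2 + s * g1 a w w1 f f1 + R ∧
      |R| ≤ L * |r| + 7 * (L * N ^ 8) + 2 * N ^ 4 * (μ * |g1 a w w1 f f1|) := by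
  have a1 : |w ^ a| ≤ L := by rwa [abs_of_pos (by positivity)]
  have a2 : |w⁻¹ ^ a| ≤ L := by rwa [abs_of_pos (by positivity)]
  have a3 : |w⁻¹| ≤ N := by rwa [abs_of_pos (by positivity)]
  have a4 : |(a : ℝ)| ≤ N := by rwa [abs_of_nonneg (by positivity)]
  have a5 : |(a : ℝ) + 1| ≤ 2 * N := by rw [abs_of_nonneg (by positivity)]; linarith
  have a6 : |Z| ≤ N * μ := by rwa [abs_of_nonneg hZ0]
  have a7 : |Z| ≤ N := a6.trans (by nlinarith)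
  have hL0 : 0 ≤ L := (abs_nonneg _).trans a1
  refine ⟨ab_mul a1 hf, ?_, w ^ a * r + a * w ^ a * w⁻¹ * (wt - s * w1 - Z * w2) * f -
    2 * (a * w⁻¹ * w1 * Z * g1 a w w1 f f1) +
    a * (a + 1) * w ^ a * (w1 * w1) * (w⁻¹ * w⁻¹) * Z * f, ?_, ?_⟩
  · have e1 : f1 = w⁻¹ ^ a * g1 a w w1 f f1 - a * w1 * w⁻¹ * f := by
      unfold g1; rw [inv_pow]; field_simp; ring
    have := ab_sub (ab_mul a2 (le_refl |g1 a w w1 f f1|)) (ab_mul (ab_mul (ab_mul a4 h1) a3) hf)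
    rw [← e1] at this
    linarith
  · rw [he]; unfold g1 g2; field_simp; ring
  · have b1 := ab_mul (ab_mul (ab_mul (ab_mul a4 a1) a3)
      (ab_sub (ab_sub ht (ab_mul hs h1)) (ab_mul a7 h2))) hf
    have b2 := ab_mul (show |(2 : ℝ)| ≤ 2 by norm_num)
      (ab_mul (ab_mul (ab_mul (ab_mul a4 a3) h1) a6) (le_refl |g1 a w w1 f f1|))
    have b3 := ab_mul (ab_mul (ab_mul (ab_mul (ab_mul (ab_mul a4 a5) a1) (ab_mul h1 h1))
      (ab_mul a3 a3)) a7) hf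
    have b4 := ab_add (ab_sub (ab_add (ab_mul a1 (le_refl |r|)) b1) b2) b3
    have c1 : L * N ^ 4 ≤ L * N ^ 8 := by gcongr; norm_num
    have c2 : L * N ^ 5 ≤ L * N ^ 8 := by gcongr; norm_num
    have c3 : 0 ≤ L * N ^ 8 := by positivity
    linarith

/-- The pointwise inequality away from the tip. -/
theorem far_pt (j : ℕ) (N : ℝ) (hN : 1 ≤ N) (hj : (j : ℝ) + 1 ≤ N) : ∃ Λ : ℝ, 0 ≤ Λ ∧
    ∀ (e w w1 w2 wt Z s μ ht kt : ℝ) (H K : ℕ → ℝ), 0 < e → e ≤ 1 → e⁻¹ ≤ N → 0 < w → w ≤ N →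
      w⁻¹ ≤ N → |w1| ≤ N → |w2| ≤ N → |wt| ≤ N → |s| ≤ N → 0 ≤ μ → μ ≤ 1 → μ ≤ N * Z →
      Z ≤ N * μ → |H (j + 1)| ≤ N → |H 2| ≤ N → |K j / e| ≤ N →
      |ht - Z * H (j + 3) - s * H (j + 2)| ≤ N * (1 + μ * (|H (j + 1)| + |H (j + 2)| + |K (j + 1)|)) →
      |kt - Z * K (j + 2) - s * K (j + 1)| ≤ N * (1 + μ * (|H (j + 1)| + |H (j + 2)| + |K (j + 1)|)) →
      PhJ1 j e w wt H K ht kt - Z * PhJ2 j e w w1 w2 H K -
        s * PhJ1 j e w w1 H K (H (j + 2)) (K (j + 1)) ≤ Λ := by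
  set L : ℝ := N ^ (j + 1) with hLd
  have hL : 1 ≤ L := one_le_pow₀ hN
  set K0 : ℝ := L * N ^ 2 * (1 + N + 2 * N ^ 4) + 7 * (L * N ^ 8) + L * L * N ^ 2 + 2 * N ^ 4 + L * N
    with hK0
  refine ⟨3 * K0 ^ 2 + K0 ^ 3 + 100 * K0 ^ 5, by positivity, ?_⟩
  intro e w w1 w2 wt Z s μ ht kt H K he he1 hei hw hwN hi h1 h2 h3 hs hμ0 hμ1 hZ1 hZ2 hH hH2 hK rH rK
  have hZ0 : 0 ≤ Z := by
    by_contra hc
    have : N * Z < 0 := mul_neg_of_pos_of_neg (by linarith) (not_le.1 hc)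
    linarith
  have pw : ∀ y : ℝ, 0 ≤ y → y ≤ N → y ^ j ≤ L ∧ y ^ (j + 1) ≤ L := fun y a b =>
    ⟨(pow_le_pow_left₀ a b j).trans (pow_le_pow_right₀ hN (by omega)), pow_le_pow_left₀ a b _⟩
  obtain ⟨u0, u1, rU, eU, bU⟩ := far_w j (f := H (j + 1)) (f1 := H (j + 2)) (f2 := H (j + 3))
    (ft := ht) (r := ht - Z * H (j + 3) - s * H (j + 2)) hN hw hi (pw w hw.le hwN).1
    (pw _ (by positivity) hi).1 (by linarith) h1 h2 h3 hs hZ0 hZ2 hμ1 hH (by ring)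
  obtain ⟨v0, v1, rV, eV, bV⟩ := far_w (j + 1) (f := K j / e) (f1 := K (j + 1) / e)
    (f2 := K (j + 2) / e) (ft := kt / e) (r := e⁻¹ * (kt - Z * K (j + 2) - s * K (j + 1))) hN hw hi
    (pw w hw.le hwN).2 (pw _ (by positivity) hi).2 (by push_cast; linarith) h1 h2 h3 hs hZ0 hZ2 hμ1 hK
    (by field_simp; ring)
  set U1 := g1 j w w1 (H (j + 1)) (H (j + 2)) with hU1
  set V1 := g1 (j + 1) w w1 (K j / e) (K (j + 1) / e) with hV1
  have v2 : |K (j + 1)| ≤ L * |V1| + N ^ 4 := by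
    refine le_trans ?_ v1
    rw [abs_div, abs_of_pos he, le_div_iff₀ he]
    exact mul_le_of_le_one_right (abs_nonneg _) he1
  have y0 : 0 ≤ μ * |U1| := by positivity
  have y1 : 0 ≤ μ * |V1| := by positivity
  have c1 : 1 + μ * (|H (j + 1)| + |H (j + 2)| + |K (j + 1)|) ≤
      (1 + N + 2 * N ^ 4) + L * (μ * |U1| + μ * |V1|) := by
    have d1 : μ * (|H (j + 1)| + |H (j + 2)| + |K (j + 1)|) ≤
        μ * (N + (L * |U1| + N ^ 4) + (L * |V1| + N ^ 4)) := by gcongr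
    have d2 : μ * (N + 2 * N ^ 4) ≤ 1 * (N + 2 * N ^ 4) := by gcongr
    linarith
  set Y := (1 + N + 2 * N ^ 4) + L * (μ * |U1| + μ * |V1|) with hY
  have hY0 : 0 ≤ Y := by positivity
  have c2 : L * |ht - Z * H (j + 3) - s * H (j + 2)| ≤ L * (N * (N * Y)) := by
    have d1 : N * (1 + μ * (|H (j + 1)| + |H (j + 2)| + |K (j + 1)|)) ≤ N * Y := by gcongr
    have d2 : N * Y ≤ N * (N * Y) := le_mul_of_one_le_left (by positivity) hN
    gcongr; linarith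
  have c3 : L * |e⁻¹ * (kt - Z * K (j + 2) - s * K (j + 1))| ≤ L * (N * (N * Y)) := by
    have d1 : N * (1 + μ * (|H (j + 1)| + |H (j + 2)| + |K (j + 1)|)) ≤ N * Y := by gcongr
    have := ab_mul (show |e⁻¹| ≤ N by rwa [abs_of_pos (by positivity)]) (rK.trans d1)
    gcongr
  have k1 : L * N ^ 2 * (1 + N + 2 * N ^ 4) + 7 * (L * N ^ 8) ≤ K0 := by
    have : 0 ≤ L * L * N ^ 2 + 2 * N ^ 4 + L * N := by positivity
    linarith
  have k2 : L * L * N ^ 2 + 2 * N ^ 4 ≤ K0 := by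
    have : 0 ≤ L * N ^ 2 * (1 + N + 2 * N ^ 4) + 7 * (L * N ^ 8) + L * N := by positivity
    linarith
  have k3 : L * N ≤ K0 := by
    have : 0 ≤ L * N ^ 2 * (1 + N + 2 * N ^ 4) + 7 * (L * N ^ 8) + L * L * N ^ 2 + 2 * N ^ 4 := by
      positivity
    linarith
  have k4 : N ≤ K0 := le_trans (le_mul_of_one_le_left (by linarith) hL) k3
  have k5 := mul_le_mul_of_nonneg_right k2 y0
  have k6 := mul_le_mul_of_nonneg_right k2 y1
  have k7 : 0 ≤ N ^ 4 * (μ * |U1|) := by positivity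
  have k8 : 0 ≤ N ^ 4 * (μ * |V1|) := by positivity
  refine core_far (K := K0) (μ := μ) (by linarith) hμ0 hμ1 (hZ1.trans (by gcongr)) (u0.trans k3)
    (v0.trans k3) ?_ eU eV (by linarith) (by linarith)
  rcases Nat.eq_zero_or_pos j with rfl | hj0
  · refine Or.inl ⟨rfl, le_trans ?_ k4⟩
    simpa [hU1, g1] using hH2
  · exact Or.inr (if_neg hj0.ne')

end

end Crest.Agent.N207.S.Rg
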