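import Crest.Agent.N207.S.Rg.Pt
import Crest.Agent.N207.S.Rg.FDefs
import Crest.Agent.N207.S.Ga.X
import Crest.Agent.N207.S.MP

/-!
Row 207 (S0320), REG + FAR: the Bernstein functions of a solution.
-/

set_option autoImplicit false

open Set

namespace Crest.Agent.N207.S.Rg

open Ga

noncomputable section

/-- The weight. -/
def wA (U : ℝ → ℝ → E3) (s x : ℝ) : ℝ := wF x (U s x 0)
/-- Its first space derivative. -/
def w1A (U : ℝ → ℝ → E3) (s x : ℝ) : ℝ := 1 + m2 x * cj U 0 0 s x + m1 x * cj U 0 1 s x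
/-- Its second space derivative. -/
def w2A (U : ℝ → ℝ → E3) (s x : ℝ) : ℝ :=
  m3 x * cj U 0 0 s x + 2 * m2 x * cj U 0 1 s x + m1 x * cj U 0 2 s x

/-- `Φ_j`. -/
def F0 (j : ℕ) (e : ℝ) (U : ℝ → ℝ → E3) (s x : ℝ) : ℝ :=
  PhJ j e (wA U s x) (fun l => cj U 0 l s x) fun l => cj U 2 l s x
/-- `∂ₜ Φ_j`. -/
def Ft (S : Ex.Sys E3) (j : ℕ) (e : ℝ) (U : ℝ → ℝ → E3) (s x : ℝ) : ℝ :=
  PhJ1 j e (wA U s x) (m1 x * ct S U 0 0 s x) (fun l => cj U 0 l s x) (fun l => cj U 2 l s x)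
    (ct S U 0 (j + 1) s x) (ct S U 2 j s x)
/-- `∂ₓ Φ_j`. -/
def Fx (j : ℕ) (e : ℝ) (U : ℝ → ℝ → E3) (s x : ℝ) : ℝ :=
  PhJ1 j e (wA U s x) (w1A U s x) (fun l => cj U 0 l s x) (fun l => cj U 2 l s x)
    (cj U 0 (j + 2) s x) (cj U 2 (j + 1) s x)
/-- `∂ₓ² Φ_j`. -/
def Fxx (j : ℕ) (e : ℝ) (U : ℝ → ℝ → E3) (s x : ℝ) : ℝ :=
  PhJ2 j e (wA U s x) (w1A U s x) (w2A U s x) (fun l => cj U 0 l s x) fun l => cj U 2 l s x

theorem hd_Ph {u v : ℝ → ℝ} {c u1 v1 x : ℝ} {I : Set ℝ} (hu : HasDerivWithinAt u u1 I x)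
    (hv : HasDerivWithinAt v v1 I x) :
    HasDerivWithinAt (fun y => Ph c (u y) (v y)) (Ph1 c (u x) u1 (v x) v1) I x := by
  refine (((hu.fun_pow 2).const_mul c).fun_add ((hv.fun_pow 2).div_const 64)).congr_deriv ?_
  unfold Ph1; simp; ring

theorem hd_Ph1 {u v u1 v1 : ℝ → ℝ} {c u2 v2 x : ℝ} {I : Set ℝ}
    (hu : HasDerivWithinAt u (u1 x) I x) (hu1 : HasDerivWithinAt u1 u2 I x)
    (hv : HasDerivWithinAt v (v1 x) I x) (hv1 : HasDerivWithinAt v1 v2 I x) :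
    HasDerivWithinAt (fun y => Ph1 c (u y) (u1 y) (v y) (v1 y))
      (Ph2 c (u x) (u1 x) u2 (v x) (v1 x) v2) I x := by
  refine (((hu.const_mul (2 * c)).fun_mul hu1).fun_add
    ((hv.fun_mul hv1).div_const 32)).congr_deriv ?_
  unfold Ph2; ring

/-- The sign of the operator at a first touching point. -/
theorem touch_both {f : ℝ → ℝ → ℝ} {fx : ℝ → ℝ} {ft fxx s x Z σ : ℝ} (h0 : 0 < s)
    (hx : x ∈ Icc (0 : ℝ) 1) (ht : HasDerivWithinAt (fun r => f r x) ft (Iic s) s)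
    (hfx : ∀ y ∈ Icc (0 : ℝ) 1, HasDerivWithinAt (f s) (fx y) (Icc 0 1) y)
    (hfxx : HasDerivWithinAt fx fxx (Icc 0 1) x) (hz : f s x = 0)
    (hp : ∀ r y, 0 ≤ r → r ≤ s → 0 ≤ y → y ≤ 1 → f r y ≤ 0) (hZ : 0 ≤ Z)
    (hl : x = 0 → Z = 0 ∧ 0 ≤ σ) (hr : x = 1 → Z = 0 ∧ σ ≤ 0) : 0 ≤ ft - Z * fxx - σ * fx x := by
  have a0 : 0 ≤ ft := MP.deriv_nonneg_of_past h0 ht hz fun r a b => hp r x a.le b.le hx.1 hx.2
  rcases hx.1.eq_or_lt with a | a
  · subst a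
    have := MP.deriv_nonpos_of_right zero_lt_one (hfx 0 hx) hz fun y c d =>
      hp s y h0.le le_rfl c.le d.le
    obtain ⟨rfl, b⟩ := hl rfl
    nlinarith [mul_nonneg b (neg_nonneg.2 this)]
  rcases hx.2.eq_or_lt with b | b
  · subst b
    have := MP.deriv_nonneg_of_left zero_lt_one (hfx 1 hx) hz fun y c d =>
      hp s y h0.le le_rfl c.le d.le
    obtain ⟨rfl, b⟩ := hr rfl
    nlinarith [mul_nonneg (neg_nonneg.2 b) this]
  obtain ⟨c, d⟩ := MP.interior_max a b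
    (fun y u v => (hfx y ⟨u.le, v.le⟩).hasDerivAt (Icc_mem_nhds u v))
    (hfxx.hasDerivAt (Icc_mem_nhds a b)) hz fun y u v => hp s y h0.le le_rfl u.le v.le
  rw [c]
  nlinarith [mul_nonneg hZ (neg_nonneg.2 d)]

section
variable {e : ℝ} {b : ℕ} {h : Rel e b} {t s x : ℝ} {U : ℝ → ℝ → E3}

theorem wA_pos (hU : Ex.IsSol (sys h) 0 t U) (hs : s ∈ Icc 0 t) (hx : x ∈ Icc (0 : ℝ) 1) :
    0 < wA U s x := (hU.mem s hs x hx).1

theorem hd_wA (ht : 0 < t) (hU : Ex.IsSol (sys h) 0 t U) (hs : s ∈ Icc 0 t)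
    (hx : x ∈ Icc (0 : ℝ) 1) : HasDerivWithinAt (wA U s) (w1A U s x) (Icc 0 1) x := by
  refine ((hasDerivWithinAt_id x _).fun_add ((hd_m1 x).hasDerivWithinAt.fun_mul
    ((jet_sol ht hU 0).dx 0 s x hs hx))).congr_deriv ?_
  unfold w1A; ring

theorem hd_w1A (ht : 0 < t) (hU : Ex.IsSol (sys h) 0 t U) (hs : s ∈ Icc 0 t)
    (hx : x ∈ Icc (0 : ℝ) 1) : HasDerivWithinAt (w1A U s) (w2A U s x) (Icc 0 1) x := by
  refine ((((hd_m2 x).hasDerivWithinAt.fun_mul ((jet_sol ht hU 0).dx 0 s x hs hx)).const_add 1).fun_add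
    ((hd_m1 x).hasDerivWithinAt.fun_mul ((jet_sol ht hU 0).dx 1 s x hs hx))).congr_deriv ?_
  unfold w2A; ring

theorem hd_Fx (ht : 0 < t) (hU : Ex.IsSol (sys h) 0 t U) (j : ℕ) (hs : s ∈ Icc 0 t)
    (hx : x ∈ Icc (0 : ℝ) 1) : HasDerivWithinAt (F0 j e U s) (Fx j e U s x) (Icc 0 1) x :=
  hd_Ph (hd_g0 j (hd_wA ht hU hs hx) ((jet_sol ht hU 0).dx (j + 1) s x hs hx) (wA_pos hU hs hx).ne')
    (hd_g0 (j + 1) (hd_wA ht hU hs hx) (((jet_sol ht hU 2).dx j s x hs hx).div_const e)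
      (wA_pos hU hs hx).ne')

theorem hd_Fxx (ht : 0 < t) (hU : Ex.IsSol (sys h) 0 t U) (j : ℕ) (hs : s ∈ Icc 0 t)
    (hx : x ∈ Icc (0 : ℝ) 1) : HasDerivWithinAt (Fx j e U s) (Fxx j e U s x) (Icc 0 1) x :=
  hd_Ph1
    (hd_g0 j (hd_wA ht hU hs hx) ((jet_sol ht hU 0).dx (j + 1) s x hs hx) (wA_pos hU hs hx).ne')
    (hd_g1 j (hd_wA ht hU hs hx) (hd_w1A ht hU hs hx) ((jet_sol ht hU 0).dx (j + 1) s x hs hx)
      ((jet_sol ht hU 0).dx (j + 2) s x hs hx) (wA_pos hU hs hx).ne')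
    (hd_g0 (j + 1) (hd_wA ht hU hs hx) (((jet_sol ht hU 2).dx j s x hs hx).div_const e)
      (wA_pos hU hs hx).ne')
    (hd_g1 (f0 := fun y => cj U 2 j s y / e) (f1 := fun y => cj U 2 (j + 1) s y / e) (j + 1)
      (hd_wA ht hU hs hx) (hd_w1A ht hU hs hx) (((jet_sol ht hU 2).dx j s x hs hx).div_const e)
      (((jet_sol ht hU 2).dx (j + 1) s x hs hx).div_const e) (wA_pos hU hs hx).ne')

theorem hd_Ft (ht : 0 < t) (hU : Ex.IsSol (sys h) 0 t U) (j : ℕ) (hs : s ∈ Icc 0 t)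
    (hx : x ∈ Icc (0 : ℝ) 1) :
    HasDerivWithinAt (fun r => F0 j e U r x) (Ft (sys h) j e U s x) (Icc 0 t) s := by
  have hw : HasDerivWithinAt (fun r => wA U r x) (m1 x * ct (sys h) U 0 0 s x) (Icc 0 t) s :=
    (((jet_sol ht hU 0).dt 0 s x hs hx).const_mul (m1 x)).const_add x
  exact hd_Ph (hd_g0 j hw ((jet_sol ht hU 0).dt (j + 1) s x hs hx) (wA_pos hU hs hx).ne')
    (hd_g0 (j + 1) hw (((jet_sol ht hU 2).dt j s x hs hx).div_const e) (wA_pos hU hs hx).ne')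

theorem cont_F0 (ht : 0 < t) (hU : Ex.IsSol (sys h) 0 t U) (j : ℕ) :
    ContinuousOn (fun p : ℝ × ℝ => F0 j e U p.1 p.2) (Icc 0 t ×ˢ Icc 0 1) := by
  have a0 : ContinuousOn (fun p : ℝ × ℝ => wA U p.1 p.2) (Icc 0 t ×ˢ Icc 0 1) :=
    continuousOn_snd.add ((contDiff_m1.continuous.comp continuous_snd).continuousOn.mul
      ((jet_sol ht hU 0).cu 0))
  exact (continuousOn_const.mul (((a0.pow j).mul ((jet_sol ht hU 0).cu (j + 1))).pow 2)).add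
    ((((a0.pow (j + 1)).mul (((jet_sol ht hU 2).cu j).div_const e)).pow 2).div_const 64)

theorem ct_one (ht : 0 < t) (hU : Ex.IsSol (sys h) 0 t U)
    (hP : ∀ s ∈ Icc 0 t, ∀ x ∈ Icc (0 : ℝ) 1, U s x 1 = cj U 0 1 s x) (j : ℕ) (hs : s ∈ Icc 0 t)
    (hx : x ∈ Icc (0 : ℝ) 1) : ct (sys h) U 1 j s x = ct (sys h) U 0 (j + 1) s x :=
  (uniqueDiffOn_Icc ht s hs).eq_deriv _ ((jet_sol ht hU 1).dt j s x hs hx)
    (((jet_sol ht hU 0).dt (j + 1) s x hs hx).congr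
      (fun r hr => peq_jet ht hU hr (hP r hr) j x hx) (peq_jet ht hU hs (hP s hs) j x hx))

end

/-- The pointwise inequality near the tip for a solution. -/
theorem near_sol (j : ℕ) (C' : ℝ) : ∃ A' : ℝ, ∀ C : ℝ, ∃ B : ℝ, 0 ≤ B ∧
    ∀ (e : ℝ) (b : ℕ) (h : Rel e b) (t : ℝ) (U : ℝ → ℝ → E3), 0 < t → Ex.IsSol (sys h) 0 t U →
      (∀ s ∈ Icc 0 t, ∀ x ∈ Icc (0 : ℝ) 1, U s x 1 = cj U 0 1 s x) → 2 ≤ C' → 2 ≤ C →
      e * C ≤ 1 / 8 → ∀ s ∈ Icc 0 t, ∀ x ∈ Icc (0 : ℝ) (1 / 4), x ≤ 2 * (x + U s x 0) →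
      |1 + U s x 1| ≤ 2 → (∀ i, 1 ≤ i → i < j → wA U s x ^ i * |cj U 0 (i + 1) s x| ≤ C') →
      (∀ i ≤ max j 1, (1 ≤ i → wA U s x ^ i * |cj U 0 (i + 1) s x| ≤ C) ∧
        wA U s x ^ (i + 1) * |cj U 2 i s x| ≤ C * e) →
      ∃ Z σ : ℝ, 0 ≤ Z ∧ (x = 0 → Z = 0 ∧ 0 ≤ σ) ∧
        wA U s x * (Ft (sys h) j e U s x - Z * Fxx j e U s x - σ * Fx j e U s x) ≤
          -F0 j e U s x + A' ^ 2 / 64 + e * B := by
  obtain ⟨A', hA⟩ := near_pt j C'
  refine ⟨A', fun C => ?_⟩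
  obtain ⟨B, hB0, hB⟩ := hA C
  refine ⟨B, hB0, ?_⟩
  intro e b h t U ht hU hP hC' hC heC s hs x hx hw hP2 hb' hb
  have he := h.1
  have hx3 : x < 1 / 3 := by linarith [hx.2]
  have hx1 : x ∈ Icc (0 : ℝ) 1 := ⟨hx.1, by linarith⟩
  have X := xsol ht hU hP (xs := 1 / 4) (by norm_num)
  obtain ⟨V, v0, v1, v2, v3⟩ := jets_eq X (by norm_num) hs hx
  have e0 : wA U s x = wj U 0 s x := by simp [wA, wF, m1_left hx3, wj_zero]
  have e1 : w1A U s x = wj U 1 s x := by simp [w1A, m1_left hx3, m2_left hx3, wj_one]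
  have e2 : w2A U s x = wj U 2 s x := by
    simp [w2A, m1_left hx3, m2_left hx3, m3_left hx3, wj_succ U 0]
  have hP3 : |wj U 1 s x| ≤ 2 := by rwa [wj_one, ← hP s hs x hx1]
  have hρ := X.pos s x hs hx
  have key : ∀ (i : ℕ) (D : ℝ), 2 ≤ D → (1 ≤ i → wA U s x ^ i * |cj U 0 (i + 1) s x| ≤ D) →
      |wj U (i + 1) s x| * wj U 0 s x ^ i ≤ D := by
    intro i D hD hi
    rcases i with _ | i
    · simpa using hP3.trans hD
    · rw [wj_succ, ← e0, mul_comm]; exact hi (by omega)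
  have hk0 : x * cj U 2 0 s x ≤ 1 := by
    have := (hU.mem s hs x hx1).2.1
    rw [m0_left hx3.le] at this
    exact (sub_pos.1 this).le
  refine ⟨2 * e * x * (1 - x * cj U 2 0 s x), 1 + 2 * e * (j + 2),
    mul_nonneg (mul_nonneg (by linarith) hx.1) (sub_nonneg.2 hk0),
    fun h0 => ⟨by simp [h0], by positivity⟩, ?_⟩
  have := hB e x (fun l => wj U l s x) (fun l => cj U 0 l s x) (fun l => cj U 2 l s x)
    (fun l => ct (sys h) U 0 l s x) (fun l => ct (sys h) U 2 l s x) V (by linarith) hC he heC hρ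
    hx.1 hw hP3 (fun i => wj_succ U i s x) v0 v1 (X.eqW s x hs hx) (X.eqK s x hs hx) v2 v3
    (fun i hi => key i C' hC' fun h1 => hb' i h1 hi)
    (fun i hi => ⟨key i C hC (hb i hi).1, by rw [← e0, mul_comm, mul_comm e]; exact (hb i hi).2⟩)
  simpa only [Ft, Fxx, Fx, F0, e0, e1, e2, m1_left hx3, one_mul] using this

theorem m0_le {x : ℝ} (hx : 0 ≤ x) : m0 x ≤ 2 * x := by
  rcases le_or_gt x (1 / 3) with a | a
  · rw [m0_left a]; linarith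
  · have := st_nonneg x
    have := st_le_one x
    unfold m0
    nlinarith

theorem KK_seg {c : ℝ} (hc : c ≤ 1) (M : ℝ) :
    ∀ x u, (x, u) ∈ KK c M → 2 / 3 ≤ x → ∀ y ∈ Icc x 1, (y, u) ∈ KK c M := by
  rintro x u ⟨a0, a1, a2, a3, a4⟩ hx y hy
  rcases hy.1.eq_or_lt with rfl | hxy
  · exact ⟨a0, a1, a2, a3, a4⟩
  have hm : m1 x = -1 := by
    have h1 : m1 =ᶠ[nhdsWithin x (Ioi x)] fun _ => -1 :=
      eventually_nhdsWithin_of_forall fun z hz => m1_right (hx.trans_lt hz)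
    exact tendsto_nhds_unique (contDiff_m1.continuous.continuousWithinAt (s := Ioi x) (x := x))
      (tendsto_const_nhds.congr' h1.symm)
  simp only [wF, hm, m0_right hx] at a1 a2 a3 a4
  refine ⟨⟨by linarith [hy.1], hy.2⟩, fun _ => a1 (by linarith), ?_, ?_, a4⟩
  · simp only [wF, m1_right (hx.trans_lt hxy)]; linarith
  · simp only [m0_right (hx.trans hy.1)]
    rcases le_total 0 (u 2) with k | k
    · nlinarith [mul_nonneg k (sub_nonneg.2 hy.1)]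
    · nlinarith [mul_nonneg (neg_nonneg.2 k) (sub_nonneg.2 hy.2)]

theorem le_sum_range {f : ℕ → ℝ} (hf : ∀ j, 0 ≤ f j) {j m : ℕ} (hj : j ≤ m) :
    f j ≤ ∑ i ∈ Finset.range (m + 1), f i :=
  Finset.single_le_sum (fun i _ => hf i) (Finset.mem_range.2 (by omega))

set_option maxHeartbeats 1000000 in
/-- The pointwise estimates away from the tip for a solution. -/
theorem far_sol (hfar : FarStmt) {e : ℝ} {b : ℕ} (h : Rel e b) {m : ℕ} (hm : 2 ≤ m) {xs C : ℝ}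
    (hxs : 0 < xs) (hx0 : xs ≤ del0 / 2) (hx1 : xs ≤ 1 / 4) (hC : 1 ≤ C) (heC : e * C ≤ 1 / 8) :
    ∃ N Λ : ℝ, 0 ≤ N ∧ 0 ≤ Λ ∧ ∀ (t : ℝ) (U : ℝ → ℝ → E3), 0 < t → Ex.IsSol (sys h) 0 t U →
      (∀ s ∈ Icc 0 t, ∀ x ∈ Icc (0 : ℝ) 1, U s x 1 = cj U 0 1 s x) →
      ∀ s ∈ Icc 0 t, ∀ x ∈ Icc xs 1, |U s x 0| ≤ 2 * xs ^ 2 →
      (∀ j ≤ m, wA U s x ^ j * |cj U 0 (j + 1) s x| ≤ C ∧
        wA U s x ^ (j + 1) * |cj U 2 j s x| ≤ C * e) →
      x ≤ 2 * wA U s x ∧ (∀ j, j + 1 ≤ m → |ct (sys h) U 0 j s x| ≤ N) ∧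
      (∀ j, j + 2 ≤ m → |ct (sys h) U 2 j s x| ≤ N) ∧
      ∀ j ≤ m, ∃ Z σ : ℝ, 0 ≤ Z ∧ (x = 1 → Z = 0 ∧ σ ≤ 0) ∧
        Ft (sys h) j e U s x - Z * Fxx j e U s x - σ * Fx j e U s x ≤ Λ := by
  have he := h.1
  have he1 : e ≤ 1 := by nlinarith
  have hi1 : 1 ≤ 2 / xs := by rw [le_div_iff₀ hxs]; linarith
  set M : ℝ := C * (2 / xs) ^ (m + 1) with hMd
  have hM : 1 ≤ M := one_le_mul_of_one_le_of_one_le hC (one_le_pow₀ hi1)
  choose Kf hK1 hKf using fun j => hfar (sys h) (KK (xs / 2) M) (isCompact_KK _ _)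
    (KK_subset (by positivity) M) (KK_seg (by linarith) M) xs M j hxs
  set Ks : ℝ := ∑ i ∈ Finset.range (m + 1), Kf i with hKs
  have hKs1 : ∀ j ≤ m, Kf j ≤ Ks := fun j hj => le_sum_range (fun i => by linarith [hK1 i]) hj
  have hKs0 : 0 ≤ Ks := by linarith [hKs1 0 (by omega), hK1 0]
  obtain ⟨Mp, hMp⟩ := (isCompact_Icc (a := (0 : ℝ)) (b := 1)).exists_bound_of_continuousOn
    (f := fun x => |m1 x| + |m2 x| + |m3 x|)
    (((contDiff_m1.continuous.abs.add contDiff_m2.continuous.abs).add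
      contDiff_m3.continuous.abs).continuousOn)
  have hMp0 : 0 ≤ Mp := (norm_nonneg _).trans (hMp 0 ⟨le_rfl, zero_le_one⟩)
  set N1 : ℝ := Ks * M + Ks * (m + b) * M + Ks * (1 + 3 * M) with hN1
  have p1 : 0 ≤ N1 := by positivity
  have p2 : 0 ≤ Mp * M := by positivity
  have p3 : 0 ≤ Mp * N1 := by positivity
  have p4 : 0 ≤ Ks * (m + b) := by positivity
  have p5 : 0 < e⁻¹ := by positivity
  have p6 : (0 : ℝ) ≤ m := by positivity
  set N : ℝ := 2 + m + e⁻¹ + 2 / xs + 4 * (Mp * M) + Mp * N1 + Ks * (m + b) + Ks + M with hNd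
  have hN : 1 ≤ N := by linarith
  choose Λ hΛ0 hΛ using fun j => far_pt (min j m) N hN (by
    have : ((min j m : ℕ) : ℝ) ≤ m := by exact_mod_cast min_le_right j m
    linarith)
  refine ⟨N1, ∑ i ∈ Finset.range (m + 1), Λ i, p1, Finset.sum_nonneg fun i _ => hΛ0 i, ?_⟩
  intro t U ht hU hP s hs x hx hη hb
  have hx01 : x ∈ Icc (0 : ℝ) 1 := ⟨hxs.le.trans hx.1, hx.2⟩
  have hη1 : |U s x 0| ≤ del0 := by nlinarith [del0_pos]
  have hη2 : |m1 x * U s x 0| ≤ xs / 2 := by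
    have h1 := (small_of_del0 (η := U s x 0 / xs) hx01 (by
      rw [abs_div, abs_of_pos hxs, div_le_iff₀ hxs]; nlinarith)).2.2
    rw [← mul_div_assoc, abs_div, abs_of_pos hxs, div_le_iff₀ hxs] at h1
    linarith
  have hw1 : x ≤ 2 * wA U s x := by unfold wA wF; linarith [(abs_le.1 hη2).1, hx.1]
  have hw2 : wA U s x ≤ 2 := by unfold wA wF; linarith [(abs_le.1 hη2).2, hx.2]
  have hw0 := wA_pos hU hs hx01
  have hwi : (wA U s x)⁻¹ ≤ 2 / xs := by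
    rw [inv_eq_one_div, div_le_div_iff₀ hw0 hxs]; linarith [hx.1]
  have key : ∀ (i : ℕ) (a : ℝ), i ≤ m + 1 → wA U s x ^ i * |a| ≤ C → |a| ≤ M := by
    intro i a hi ha
    have h1 : (wA U s x)⁻¹ ^ i ≤ (2 / xs) ^ (m + 1) :=
      (pow_le_pow_left₀ (by positivity) hwi i).trans (pow_le_pow_right₀ hi1 hi)
    have h2 : |a| = wA U s x ^ i * |a| * (wA U s x)⁻¹ ^ i := by rw [inv_pow]; field_simp
    rw [h2]; exact mul_le_mul ha h1 (by positivity) (by linarith)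
  have b0 : ∀ l ≤ m + 1, |cj U 0 l s x| ≤ M := by
    intro l hl
    rcases l with _ | l
    · rw [cj_zero]; nlinarith
    · exact key l _ (by omega) (hb l (by omega)).1
  have pj := fun j => peq_jet ht hU hs (hP s hs) j x hx01
  have b1 : ∀ l ≤ m, |cj U 1 l s x| ≤ M := fun l hl => by rw [pj]; exact b0 _ (by omega)
  have b2' : ∀ l ≤ m, |cj U 2 l s x / e| ≤ M := fun l hl => key (l + 1) _ (by omega) (by
    rw [abs_div, abs_of_pos he, ← mul_div_assoc, div_le_iff₀ he]; exact (hb l hl).2)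
  have b2 : ∀ l ≤ m, |cj U 2 l s x| ≤ M := fun l hl => by
    refine le_trans ?_ (b2' l hl)
    rw [abs_div, abs_of_pos he, le_div_iff₀ he]
    exact mul_le_of_le_one_right (abs_nonneg _) he1
  have b3 : ∀ i, ∀ l ≤ m, |cj U i l s x| ≤ M := fun i l hl => by
    fin_cases i
    exacts [b0 l (by omega), b1 l hl, b2 l hl]
  have hKK : (x, U s x) ∈ KK (xs / 2) M := by
    refine ⟨hx01, fun _ => hη1, by linarith [hx.1, show wF x (U s x 0) = wA U s x from rfl], ?_,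
      fun i => b3 i 0 (by omega)⟩
    have h1 := (hb 0 (by omega)).2
    rw [zero_add, pow_one, cj_zero] at h1
    have h2 := ab_mul (show |m0 x| ≤ 4 * wA U s x by
      rw [abs_of_nonneg (m0_nonneg hx01.1 hx01.2)]; linarith [m0_le hx01.1]) (le_refl |U s x 2|)
    have h3 := (abs_le.1 h2).2
    show xs / 2 ≤ 1 - m0 x * U s x 2
    linarith
  have hf := fun j (hj : j ≤ m) => hKf j 0 t U hU s hs x hx hKK fun i l hl => b3 i l (by omega)
  set a := (sys h).a (x, U s x) with ha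
  have ha0 : 0 < a := (sys h).apos _ (hU.mem s hs x hx01)
  have haK : a ≤ Ks := (hf 0 (by omega)).2.1.trans (hKs1 0 (by omega))
  have hμ0 := Ex.mu_nonneg hx01
  have hμ1 : Ex.mu x ≤ 1 := Ex.mu_le.trans (by norm_num)
  have hσ : ∀ j ≤ m, |a * (j * (1 - 2 * x) - (sys h).b)| ≤ Ks * (m + b) := fun j hj => by
    have h1 : |(j : ℝ)| ≤ m := by rw [Nat.abs_cast]; exact_mod_cast hj
    have h2 := ab_mul h1 (show |1 - 2 * x| ≤ 1 from abs_le.2 ⟨by linarith [hx01.2], by linarith [hx01.1]⟩)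
    rw [mul_one] at h2
    exact ab_mul ((ab_nn ha0.le).trans haK) (ab_sub h2 (Nat.abs_cast b).le)
  have hr : ∀ j ≤ m, ∀ i, |ct (sys h) U i j s x - a * Ex.mu x * cj U i (j + 2) s x -
      a * (j * (1 - 2 * x) - (sys h).b) * cj U i (j + 1) s x| ≤ Ks * (1 + Ex.mu x *
        (|cj U 0 (j + 1) s x| + |cj U 1 (j + 1) s x| + |cj U 2 (j + 1) s x|)) := fun j hj i =>
    ((hf j hj).2.2 i).trans (mul_le_mul_of_nonneg_right (hKs1 j hj) (by positivity))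
  have hct : ∀ i j, j + 1 ≤ m → |cj U i (j + 2) s x| ≤ M → |ct (sys h) U i j s x| ≤ N1 := by
    intro i j hj h2
    have c1 := hr j (by omega) i
    have c2 : Ex.mu x * (|cj U 0 (j + 1) s x| + |cj U 1 (j + 1) s x| + |cj U 2 (j + 1) s x|) ≤
        1 * (M + M + M) := by gcongr <;> exact b3 _ _ hj
    have c3 := mul_le_mul_of_nonneg_left c2 hKs0
    have c4 := ab_mul (ab_mul ((ab_nn ha0.le).trans haK) ((ab_nn hμ0).trans hμ1)) h2
    have c5 := ab_mul (hσ j (by omega)) (b3 i (j + 1) hj)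
    have c6 := ab_add (ab_add c1 c5) c4
    rw [sub_add_cancel, sub_add_cancel] at c6
    linarith
  have hm' := hMp x hx01
  rw [Real.norm_eq_abs, abs_of_nonneg (by positivity)] at hm'
  have q1 : |m1 x| ≤ Mp := by linarith [abs_nonneg (m2 x), abs_nonneg (m3 x)]
  have q2 : |m2 x| ≤ Mp := by linarith [abs_nonneg (m1 x), abs_nonneg (m3 x)]
  have q3 : |m3 x| ≤ Mp := by linarith [abs_nonneg (m2 x), abs_nonneg (m1 x)]
  refine ⟨hw1, fun j hj => hct 0 j hj (b0 _ (by omega)),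
    fun j hj => hct 2 j (by omega) (b2 _ hj), fun j hj => ⟨a * Ex.mu x,
      a * (j * (1 - 2 * x) - (sys h).b), by positivity, fun h1 => ⟨by simp [h1, Ex.mu], ?_⟩, ?_⟩⟩
  · rw [h1]
    refine mul_nonpos_of_nonneg_of_nonpos ha0.le ?_
    have : (0 : ℝ) ≤ j := by positivity
    have : (0 : ℝ) ≤ (sys h).b := by positivity
    linarith
  · refine le_trans ?_ (le_sum_range hΛ0 hj)
    have r1 := hr j hj 1
    have r2 := hr j hj 2
    rw [ct_one ht hU hP j hs hx01, pj, pj] at r1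
    rw [pj] at r2
    have hKN : Ks ≤ N := by linarith
    have r3 : ∀ y : ℝ, 0 ≤ y → Ks * y ≤ N * y := fun y hy => by gcongr
    have := hΛ j
    rw [min_eq_left hj] at this
    refine this e _ _ _ _ _ _ (Ex.mu x) _ _ _ _ he he1 (by linarith) hw0 (by linarith)
      (by linarith) ?_ ?_ ?_ ((hσ j hj).trans (by linarith)) hμ0 hμ1 ?_ ?_
      ((b0 _ (by omega)).trans (by linarith)) ((b0 _ (by omega)).trans (by linarith))
      ((b2' _ hj).trans (by linarith)) (r1.trans (r3 _ (by positivity)))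
      (r2.trans (r3 _ (by positivity)))
    · have := ab_add (ab_add abs_one.le (ab_mul q2 (b0 0 (by omega)))) (ab_mul q1 (b0 1 (by omega)))
      exact this.trans (by linarith)
    · have := ab_add (ab_add (ab_mul q3 (b0 0 (by omega)))
        (ab_mul (ab_mul (show |(2 : ℝ)| ≤ 2 by norm_num) q2) (b0 1 (by omega))))
        (ab_mul q1 (b0 2 (by omega)))
      exact this.trans (by linarith)
    · exact (ab_mul q1 (hct 0 0 (by omega) (b0 _ (by omega)))).trans (by linarith)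
    · have c1 := (hf 0 (by omega)).1
      have c2 : Kf 0 * a ≤ N * a := by gcongr; exact (hKs1 0 (by omega)).trans hKN
      have := mul_le_mul_of_nonneg_right (c1.trans c2) hμ0
      linarith
    · gcongr; linarith

end

end Crest.Agent.N207.S.Rg
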