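import Crest.Agent.N207.S.Rg.Main
import Crest.Agent.N207.S.In.Far

/-!
Row 207 (S0320): block REG + FAR.
-/

set_option autoImplicit false

namespace Crest.Agent.N207.S.Rg

/-- **Block REG + FAR.** -/
theorem regStmt : RegStmt := regStmt_of far

end Crest.Agent.N207.S.Rg
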